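import Vale.Agent.P337.Ch

/-! Modular arithmetic and signs of huge integers in the counting hierarchy. -/

namespace Vale.Agent.P337

open Vale.Agent.PT Finset Classical

variable {α β : Type} [TEnc α] [TEnc β] {F G B N m : α → ℕ} {V : α → Prop} {X Y : α → ℤ}

/-- Functions whose subgraph is in the hierarchy. -/
def Cf (F : α → ℕ) : Prop := Ch fun x : α × ℕ => x.2 < F x.1

theorem Cf.of (h : PTime F) : Cf F := Ch.of (by fun_prop)

theorem Cf.comp (h : Cf F) {g : β → α} (hg : PTime g) : Cf fun b => F (g b) :=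
  Ch.comp h (g := fun x : β × ℕ => (g x.1, x.2)) (by fun_prop)

theorem Cf.subst (hF : Cf F) (hB : PTime B) (h : ∀ a, F a ≤ B a) {P : α → ℕ → Prop}
    (hP : Ch fun x : α × ℕ => P x.1 x.2) : Ch fun a => P a (F a) :=
  (Ch.ex (Q := fun a v => (¬ v < F a ∧ ∀ u < v, u < F a) ∧ P a v) (N := fun a => B a + 1)
    (by fun_prop) ((hF.not.and (.all .snd_id (Ch.comp hF (g := fun x : (α × ℕ) × ℕ => (x.1.1, x.2))
      (by fun_prop)))).and hP)).of_iff fun a => ⟨fun ⟨v, _, ⟨h1, h2⟩, h3⟩ => by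
        rwa [le_antisymm (not_lt.1 h1) (not_lt.1 fun h => (h2 _ h).false)],
      fun h' => ⟨_, Nat.lt_succ_of_le (h a), by simp, h'⟩⟩

theorem Cf.map₂ (hF : Cf F) (hG : Cf G) (hB : PTime B) (h : ∀ a, F a ≤ B a) (h' : ∀ a, G a ≤ B a)
    {f : α → ℕ → ℕ → ℕ} (hf : PTime fun x : α × ℕ × ℕ => f x.1 x.2.1 x.2.2) :
    Cf fun a => f a (F a) (G a) :=
  (hF.comp .fst_id).subst (hB.comp .fst_id) (fun _ => h _) (P := fun x u => x.2 < f x.1 u (G x.1))
    ((hG.comp (g := fun x : (α × ℕ) × ℕ => x.1.1) (by fun_prop)).subst (hB.comp (by fun_prop))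
      (fun _ => h' _) (P := fun x v => x.1.2 < f x.1.1 x.2 v) (Ch.comp (Cf.of hf)
        (g := fun x : ((α × ℕ) × ℕ) × ℕ => ((x.1.1.1, x.1.2, x.2), x.1.1.2)) (by fun_prop)))

theorem Cf.ite {P : α → Prop} [DecidablePred P] (h : Ch P) (hF : Cf F) (hG : Cf G) :
    Cf fun a => if P a then F a else G a :=
  (((h.comp .fst_id).and hF).or ((h.comp .fst_id).not.and hG)).of_iff fun a => by
    by_cases P a.1 <;> simp [*]

theorem Cf.sum {f : α → ℕ → ℕ} (hN : PTime N) (hB : PTime B) (h : ∀ a i, f a i ≤ B a)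
    (hf : Cf fun x : α × ℕ => f x.1 x.2) : Cf fun a => ∑ i ∈ range (N a), f a i := by
  refine (Ch.cnt (Q := fun (x : α × ℕ) y => y % (B x.1 + 1) < f x.1 (y / (B x.1 + 1)))
    (N := fun x => N x.1 * (B x.1 + 1)) .snd_id (by fun_prop) (Ch.comp hf (g := fun x : (α × ℕ) × ℕ =>
      ((x.1.1, x.2 / (B x.1.1 + 1)), x.2 % (B x.1.1 + 1))) (by fun_prop))).of_iff fun ⟨a, r⟩ => ?_
  refine iff_of_eq (congrArg _ ?_)
  dsimp only
  induction N a with
  | zero => simp
  | succ n ih =>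
    rw [card_filter] at ih ⊢
    rw [add_one_mul, sum_range_add, ih, sum_range_succ (f a), ← card_range (f a n),
      show range (f a n) = (range (B a + 1)).filter (· < f a n) by
        ext; have := h a n; simp; omega, card_filter]
    congr 1
    refine sum_congr rfl fun y hy => ?_
    rw [mem_range] at hy
    rw [Nat.mul_add_mod_of_lt hy, mul_comm n, Nat.mul_add_div (by omega), Nat.div_eq_of_lt hy, add_zero]
    congr

theorem ptime_powMod (hF : PTime F) (hG : PTime G) (hm : PTime m) :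
    PTime fun a => F a ^ G a % (m a + 1) := by
  have : ∀ a l, List.foldr (fun b s => s * s * (bif b then F a else 1) % (m a + 1))
      (1 % (m a + 1)) l = F a ^ val l % (m a + 1) := fun a l => by
    induction l with
    | nil => rfl
    | cons b l ih =>
      rw [List.foldr_cons, ih, val_cons, pow_add, two_mul, pow_add, mul_comm (_ ^ b.toNat)]
      cases b <;> simp [Nat.mul_mod]
  refine (hG.bits.foldr (i := fun a => 1 % (m a + 1)) (by fun_prop) (f := fun a b s => s * s * (bif b then F a else 1) % (m a + 1))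
    (by fun_prop) (fun a => 4 * sz (m a) + 1) (by fun_prop) fun a k => ?_).of_eq fun a => by
      rw [this, val_bits]
  exact this _ _ ▸ sz_nat_le_of_le (Nat.le_of_lt_succ (Nat.mod_lt _ (by omega)))

/-- Integer functions whose residues modulo the prime `m a` are computed in the hierarchy. -/
def Ar (V : α → Prop) (m : α → ℕ) (X : α → ℤ) : Prop := PTime m ∧ ∃ G, Cf G ∧ (∀ a, G a ≤ m a) ∧
  ∀ a, V a → (m a).Prime → (G a : ZMod (m a)) = X a

theorem Ar.congr (h : Ar V m X) (H : ∀ a, V a → (m a).Prime → (X a : ZMod (m a)) = Y a) :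
    Ar V m Y := let ⟨h0, G, h1, h2, h3⟩ := h; ⟨h0, G, h1, h2, fun a v p => (h3 a v p).trans (H a v p)⟩

theorem Ar.comp (h : Ar V m X) {g : β → α} (hg : PTime g) :
    Ar (fun b => V (g b)) (fun b => m (g b)) fun b => X (g b) :=
  let ⟨h0, _, h1, h2, h3⟩ := h; ⟨h0.comp hg, _, h1.comp hg, fun _ => h2 _, fun _ => h3 _⟩

theorem cast_mod {p : ℕ} (h : p.Prime) (x : ℕ) : ((x % (p - 1 + 1) : ℕ) : ZMod p) = x := by
  rw [Nat.sub_add_cancel h.pos, ZMod.natCast_mod]

theorem mod_le (p x : ℕ) : x % (p - 1 + 1) ≤ p := by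
  have := Nat.mod_lt x (show 0 < p - 1 + 1 by omega); omega

theorem Ar.of (hm : PTime m) (h : PTime X) : Ar V m X :=
  ⟨hm, fun a => (X a % m a).toNat % (m a - 1 + 1), .of (by fun_prop), fun _ => mod_le _ _,
    fun a _ p => by
      rw [cast_mod p, ← Int.cast_natCast, Int.toNat_of_nonneg (Int.emod_nonneg _ (by simp [p.ne_zero])),
        ZMod.intCast_mod]⟩

theorem Ar.add (h : Ar V m X) (h' : Ar V m Y) : Ar V m fun a => X a + Y a :=
  let ⟨h0, _, h1, h2, h3⟩ := h; let ⟨_, _, a1, a2, a3⟩ := h'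
  ⟨h0, _, h1.map₂ a1 h0 h2 a2 (f := fun a u v => (u + v) % (m a - 1 + 1)) (by fun_prop),
    fun _ => mod_le _ _, fun a v p => by simp only [cast_mod p]; simp [h3 a v p, a3 a v p]⟩

theorem Ar.mul (h : Ar V m X) (h' : Ar V m Y) : Ar V m fun a => X a * Y a :=
  let ⟨h0, _, h1, h2, h3⟩ := h; let ⟨_, _, a1, a2, a3⟩ := h'
  ⟨h0, _, h1.map₂ a1 h0 h2 a2 (f := fun a u v => (u * v) % (m a - 1 + 1)) (by fun_prop),
    fun _ => mod_le _ _, fun a v p => by simp only [cast_mod p]; simp [h3 a v p, a3 a v p]⟩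

theorem Ar.neg (h : Ar V m X) : Ar V m fun a => -X a := by
  simpa using (Ar.of h.1 (.const (-1))).mul h

theorem Ar.sub (h : Ar V m X) (h' : Ar V m Y) : Ar V m fun a => X a - Y a := by
  simpa [sub_eq_add_neg] using h.add h'.neg

theorem Ar.ite {P : α → Prop} [DecidablePred P] (hP : Ch P) (h : Ar V m X) (h' : Ar V m Y) :
    Ar V m fun a => if P a then X a else Y a :=
  let ⟨h0, _, h1, h2, h3⟩ := h; let ⟨_, _, a1, a2, a3⟩ := h'
  ⟨h0, _, h1.ite hP a1, fun a => by split_ifs <;> simp [*],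
    fun a v p => by by_cases P a <;> simp [*, h3 a v p, a3 a v p]⟩

theorem Ar.sum {f : α → ℕ → ℤ} (hN : PTime N)
    (h : Ar (fun x : α × ℕ => V x.1) (fun x => m x.1) fun x => f x.1 x.2) :
    Ar V m fun a => ∑ i ∈ range (N a), f a i := by
  obtain ⟨h0, G, h1, h2, h3⟩ := h
  have hm : PTime m := h0.comp (f := fun a => (a, 0)) (by fun_prop)
  have h4 := Cf.sum (f := fun a i => G (a, i)) hN hm (fun a i => h2 (a, i)) h1
  have h5 : ∀ a, ∑ i ∈ range (N a), G (a, i) ≤ N a * m a := fun a => by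
    simpa using! sum_le_card_nsmul (range (N a)) _ _ fun i _ => h2 (a, i)
  exact ⟨hm, _, h4.map₂ h4 (hN.mul hm) h5 h5 (f := fun a u _ => u % (m a - 1 + 1)) (by fun_prop),
    fun _ => mod_le _ _, fun a v p => by simp only [cast_mod p]; simp [h3 (a, _) v p]⟩

theorem Ch.prime (hm : PTime m) : Ch fun a => (m a).Prime :=
  ((Ch.of (P := fun a => 2 ≤ m a) (by fun_prop)).and (Ch.all (Q := fun a d => d ∣ m a → d = 1) hm
    (.of (by fun_prop)))).of_iff fun _ => Nat.prime_def_lt.symm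

/-- Discrete logarithm. -/
noncomputable def dl (g p v : ℕ) : ℕ :=
  Nat.find (⟨p, .inl rfl⟩ : ∃ e, e = p ∨ g ^ e % (p - 1 + 1) = v % (p - 1 + 1))

theorem dl_le (g p v : ℕ) : dl g p v ≤ p := Nat.find_le (.inl rfl)

theorem dl_spec {g p v : ℕ} (h : dl g p v < p) : g ^ dl g p v % (p - 1 + 1) = v % (p - 1 + 1) :=
  (Nat.find_spec (p := fun e => e = p ∨ g ^ e % (p - 1 + 1) = v % (p - 1 + 1)) _).resolve_left h.ne

theorem Cf.dl (hF : PTime F) (hm : PTime m) (hG : Cf G) (h : ∀ a, G a ≤ m a) :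
    Cf fun a => dl (F a) (m a) (G a) := by
  have : PTime fun x : ((α × ℕ) × ℕ) × ℕ => F x.1.1.1 ^ x.1.2 % (m x.1.1.1 - 1 + 1) :=
    ptime_powMod (by fun_prop) (by fun_prop) (by fun_prop)
  exact (Ch.all (Q := fun x e => ¬ (e = m x.1 ∨ F x.1 ^ e % (m x.1 - 1 + 1) =
    G x.1 % (m x.1 - 1 + 1))) (N := fun x : α × ℕ => x.2 + 1) (by fun_prop)
    ((hG.comp (g := fun x : (α × ℕ) × ℕ => x.1.1) (by fun_prop)).subst (hm.comp (by fun_prop))
      (fun _ => h _) (P := fun x v => ¬ (x.2 = m x.1.1 ∨ F x.1.1 ^ x.2 % (m x.1.1 - 1 + 1) =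
        v % (m x.1.1 - 1 + 1))) (.of (by fun_prop)))).of_iff fun x => by
      simp only [P337.dl, Nat.lt_find_iff, Nat.lt_succ_iff]

theorem Ar.prod {f : α → ℕ → ℤ} (hN : PTime N)
    (h : Ar (fun x : α × ℕ => V x.1) (fun x => m x.1) fun x => f x.1 x.2) :
    Ar V m fun a => ∏ i ∈ range (N a), f a i := by
  obtain ⟨h0, G, h1, h2, h3⟩ := h
  have hm : PTime m := h0.comp (f := fun a => (a, 0)) (by fun_prop)
  have a2 : Cf fun x : (α × ℕ) × ℕ => dl x.1.2 (m x.1.1) (G (x.1.1, x.2)) :=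
    .dl (by fun_prop) (by fun_prop) (h1.comp (by fun_prop)) fun _ => h2 _
  have a3 := Cf.sum (f := fun (x : α × ℕ) i => dl x.2 (m x.1) (G (x.1, i))) (hN.comp .fst_id)
    (hm.comp .fst_id) (fun x i => dl_le _ _ _) a2
  have a4 : ∀ x : α × ℕ, ∑ i ∈ range (N x.1), dl x.2 (m x.1) (G (x.1, i)) ≤ N x.1 * m x.1 :=
    fun x => by simpa using! sum_le_card_nsmul (range (N x.1)) _ _ fun i _ => dl_le _ _ _
  have a5 := a3.map₂ a3 (by fun_prop) a4 a4 (f := fun x u _ => x.2 ^ u % (m x.1 - 1 + 1))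
    (ptime_powMod (by fun_prop) (by fun_prop) (by fun_prop))
  have a6 : Ch fun x : α × ℕ => ∀ i < N x.1, dl x.2 (m x.1) (G (x.1, i)) < m x.1 :=
    .all (by fun_prop) (a2.subst (B := fun x => m x.1.1) (by fun_prop) (fun _ => dl_le _ _ _)
      (P := fun x v => v < m x.1.1) (.of (by fun_prop)))
  have a7 := Ch.ex (Q := fun (x : α × ℕ) g => (∀ i < N x.1, dl g (m x.1) (G (x.1, i)) < m x.1) ∧ x.2 <
      g ^ (∑ i ∈ range (N x.1), dl g (m x.1) (G (x.1, i))) % (m x.1 - 1 + 1)) (hm.comp .fst_id)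
    ((a6.comp (g := fun x : (α × ℕ) × ℕ => (x.1.1, x.2)) (by fun_prop)).and
      (Ch.comp a5 (g := fun x : (α × ℕ) × ℕ => ((x.1.1, x.2), x.1.2)) (by fun_prop)))
  have a8 : ∀ a g, (∀ i < N a, dl g (m a) (G (a, i)) < m a) →
      g ^ (∑ i ∈ range (N a), dl g (m a) (G (a, i))) % (m a - 1 + 1) =
        (∏ i ∈ range (N a), G (a, i)) % (m a - 1 + 1) := fun a g h => by
    rw [← prod_pow_eq_pow_sum, prod_nat_mod, prod_nat_mod _ _ fun i => G (a, i)]
    exact congrArg (· % _) (prod_congr rfl fun i hi => dl_spec (h i (mem_range.1 hi)))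
  refine ⟨hm, fun a => if (m a).Prime then (∏ i ∈ range (N a), G (a, i)) % (m a - 1 + 1) else 0,
    ((Ch.prime (hm.comp .fst_id)).and a7).of_iff fun ⟨a, r⟩ => ⟨fun ⟨p, g, _, h, h'⟩ => by
      simpa only [p, if_true, ← a8 a g h], fun h => ?_⟩, fun a => by
      dsimp only; split_ifs; exacts [mod_le _ _, Nat.zero_le _],
      fun a v p => by simp only [if_pos p, cast_mod p]; simp [h3 (a, _) v p]⟩
  by_cases p : (m a).Prime <;> simp only [p, if_true, if_false, not_lt_zero] at h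
  have := Fact.mk p
  obtain ⟨g, hg⟩ := IsCyclic.exists_generator (α := (ZMod (m a))ˣ)
  have b : ∀ i < N a, dl (g : ZMod (m a)).val (m a) (G (a, i)) < m a := fun i hi => by
    have : (G (a, i) : ZMod (m a)) ≠ 0 := fun h' => by
      rw [Nat.sub_add_cancel p.pos, Nat.mod_eq_zero_of_dvd (((ZMod.natCast_eq_zero_iff _ _).1 h').trans
        (dvd_prod_of_mem (fun i => G (a, i)) (mem_range.2 hi)))] at h
      omega
    obtain ⟨e, he, he'⟩ := mem_image.1 (mem_zpowers_iff_mem_range_orderOf.1 (hg (.mk0 _ this)))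
    refine (Nat.find_le (.inr ?_)).trans_lt
      ((mem_range.1 he).trans_le (orderOf_le_card_univ.trans (by simp [Nat.totient_le])))
    rw [Nat.sub_add_cancel p.pos, ← ZMod.natCast_eq_natCast_iff']
    simpa using congrArg Units.val he'
  exact ⟨p, _, ZMod.val_lt _, b, by rwa [a8 _ _ b]⟩

theorem Ar.pow (h : Ar V m X) (hN : PTime N) : Ar V m fun a => X a ^ N a := by
  simpa using Ar.prod (f := fun a _ => X a) hN (h.comp .fst_id)

end Vale.Agent.P337
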