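import Vale.Agent.P337.Defs
import Vale.Agent.Lib.PTime.Rat

/-! Closure properties of the counting hierarchy. -/

namespace Vale.Agent.P337

open Vale.Agent.PT Finset Classical

variable {α β : Type} [TEnc α] [TEnc β] {j : ℕ} {P Q : α → Prop}

/-- The typed levels. -/
def K : ℕ → (α : Type) → [TEnc α] → (α → Prop) → Prop
  | 0, α, _, P => ∃ f : α → Bool, PTime f ∧ ∀ a, P a ↔ f a = true
  | j + 1, α, _, P => ∃ Q : α × ℕ → Prop, K j _ Q ∧ ∃ (N k : α → ℕ) (d : α × ℕ × Bool → Bool),
      PTime N ∧ PTime k ∧ PTime d ∧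
        ∀ a, P a ↔ k a < ((range (N a)).filter fun y => d (a, y, decide (Q (a, y))) = true).card

theorem K.comp (h : K j α P) {g : β → α} (hg : PTime g) : K j β fun b => P (g b) := by
  induction j generalizing α β with
  | zero => exact let ⟨f, h1, h2⟩ := h; ⟨_, h1.comp hg, fun _ => h2 _⟩
  | succ j ih =>
    obtain ⟨Q, h0, N, k, d, h1, h2, h3, h4⟩ := h
    exact ⟨_, ih h0 (g := fun x => (g x.1, x.2)) (by fun_prop), _, _, fun x => d (g x.1, x.2),
      h1.comp hg, h2.comp hg, by fun_prop, fun _ => h4 _⟩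

theorem K.succ (h : K j α P) : K (j + 1) α P :=
  ⟨_, h.comp .fst_id, fun _ => 1, fun _ => 0, fun x => x.2.2, by fun_prop, by fun_prop, by fun_prop,
    fun a => by by_cases P a <;> simp [*]⟩

theorem K.join (h : K j α P) (h' : K j α Q) :
    K j (Bool × α) fun x => if x.1 then P x.2 else Q x.2 := by
  induction j generalizing α with
  | zero =>
    obtain ⟨f, h1, h2⟩ := h
    obtain ⟨g, h3, h4⟩ := h'
    exact ⟨fun x => if x.1 then f x.2 else g x.2, by fun_prop, fun ⟨b, a⟩ => by
      cases b <;> simp [h2, h4]⟩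
  | succ j ih =>
    obtain ⟨R, h0, N, k, d, h1, h2, h3, h4⟩ := h
    obtain ⟨R', a0, N', k', d', a1, a2, a3, a4⟩ := h'
    exact ⟨_, (ih h0 a0).comp (g := fun x => (x.1.1, x.1.2, x.2)) (by fun_prop),
      fun x => if x.1 then N x.2 else N' x.2, fun x => if x.1 then k x.2 else k' x.2,
      fun x => if x.1.1 then d (x.1.2, x.2) else d' (x.1.2, x.2), by fun_prop, by fun_prop,
      by fun_prop, fun ⟨b, a⟩ => by cases b <;> simp [h4, a4]⟩

/-- Predicates in the counting hierarchy. -/
def Ch (P : α → Prop) : Prop := ∃ j, K j α P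

theorem Ch.comp (h : Ch P) {g : β → α} (hg : PTime g) : Ch fun b => P (g b) :=
  h.imp fun _ h => h.comp hg

theorem Ch.of_iff (h : Ch P) (H : ∀ a, P a ↔ Q a) : Ch Q := funext (fun a => propext (H a)) ▸ h

theorem Ch.of [DecidablePred P] (h : PTime fun a => decide (P a)) : Ch P :=
  ⟨0, _, h, by simp⟩

theorem Ch.cnt {Q : α → ℕ → Prop} {N k : α → ℕ} (hk : PTime k) (hN : PTime N)
    (h : Ch fun x : α × ℕ => Q x.1 x.2) : Ch fun a => k a < ((range (N a)).filter (Q a)).card :=
  let ⟨j, h⟩ := h; ⟨j + 1, _, h, N, k, fun x => x.2.2, hN, hk, by fun_prop, by simp⟩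

theorem Ch.not (h : Ch P) : Ch fun a => ¬ P a :=
  let ⟨j, h⟩ := h
  ⟨j + 1, _, h.comp .fst_id, fun _ => 1, fun _ => 0, fun x => !x.2.2, by fun_prop, by fun_prop,
    by fun_prop, fun a => by by_cases P a <;> simp [*]⟩

theorem Ch.ex {Q : α → ℕ → Prop} {N : α → ℕ} (hN : PTime N) (h : Ch fun x : α × ℕ => Q x.1 x.2) :
    Ch fun a => ∃ y < N a, Q a y :=
  (h.cnt (.const 0) hN).of_iff fun a => by simp [filter_nonempty_iff]

theorem Ch.all {Q : α → ℕ → Prop} {N : α → ℕ} (hN : PTime N) (h : Ch fun x : α × ℕ => Q x.1 x.2) :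
    Ch fun a => ∀ y < N a, Q a y :=
  (Ch.ex (Q := fun a y => ¬ Q a y) hN h.not).not.of_iff fun a => by simp

theorem Ch.and (h : Ch P) (h' : Ch Q) : Ch fun a => P a ∧ Q a := by
  obtain ⟨i, h⟩ := h
  obtain ⟨j, h'⟩ := h'
  have H : ∀ {R : α → Prop} {i j}, i ≤ j → K i α R → K j α R := fun hij h =>
    Nat.le_induction h (fun _ _ => K.succ) _ hij
  refine (Ch.all (Q := fun a y => if decide (y = 0) then P a else Q a) (.const 2) (Ch.comp
    ⟨_, (H (le_max_left i j) h).join (H (le_max_right i j) h')⟩
    (g := fun x : α × ℕ => (decide (x.2 = 0), x.1)) (by fun_prop))).of_iff fun a => ?_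
  exact ⟨fun h => ⟨by simpa using h 0 two_pos, by simpa using h 1 one_lt_two⟩,
    fun h y _ => by split_ifs <;> tauto⟩

theorem Ch.or (h : Ch P) (h' : Ch Q) : Ch fun a => P a ∨ Q a :=
  (h.not.and h'.not).not.of_iff fun a => by tauto

/-! ### parsing -/

/-- One step of the parser. -/
def pstep (b : Bool) (s : List BT) : List BT :=
  if b then lcas s s fun x r => lcas r s fun y r' => TEnc.enc (x, y) :: r' else .nil :: s

/-- The parser. -/
def parse (l : List Bool) : BT := (l.foldr pstep []).headD .nil

theorem parse_ser (t : BT) (r : List Bool) : parse (t.ser ++ r) = t := by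
  have : ∀ r, (t.ser ++ r).foldr pstep [] = t :: r.foldr pstep [] := by
    induction t with
    | nil => exact fun _ => rfl
    | cons a b h1 h2 => intro r; rw [BT.ser, List.cons_append, List.append_assoc, List.foldr_cons, h1, h2]; rfl
  rw [parse, this]; rfl

@[fun_prop] theorem ptime_enc {f : α → β} (h : PTime f) : PTime fun a => TEnc.enc (f a) := h.enc

@[fun_prop] theorem ptime_parse {f : α → List Bool} (h : PTime f) : PTime fun a => parse (f a) := by
  refine (h.foldr_add (.const []) (f := fun _ => pstep) (by unfold pstep; fun_prop) _ (.const 2)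
    fun _ s b _ => ?_).headD (.const _)
  cases b
  · exact (sz_cons _ _).trans_le (by rw [show sz BT.nil = 1 from rfl]; omega)
  · rcases s with _ | ⟨x, _ | ⟨y, r⟩⟩ <;> simp [pstep]
    rw [show sz (TEnc.enc (x, y)) = _ from sz_prod x y]; omega

/-- A tree as a pair. -/
def toP (t : BT) : BT × BT := t.cas (.nil, .nil) id

/-- A tree as a list. -/
def toL : BT → List BT
  | .nil => []
  | .cons a b => a :: toL b

/-- A tree as a bit. -/
def toB (t : BT) : Bool := t.cas false fun _ => true

@[fun_prop] theorem ptime_toP {f : α → BT} (h : PTime f) : PTime fun a => toP (f a) :=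
  h.cas (.const _) (h := fun _ => id) .snd_id

@[fun_prop] theorem ptime_toB {f : α → BT} (h : PTime f) : PTime fun a => toB (f a) :=
  h.cas (.const _) (h := fun _ _ => true) (.const _)

@[fun_prop] theorem ptime_toL {f : α → BT} (h : PTime f) : PTime fun a => toL (f a) :=
  h.of_enc fun a => by
    induction f a with
    | nil => rfl
    | cons a b _ ih => exact congrArg (BT.cons a) ih

@[simp] theorem toP_enc (a : α) (b : β) : toP (TEnc.enc (a, b)) = (TEnc.enc a, TEnc.enc b) := rfl

@[simp] theorem toB_enc (b : Bool) : toB (TEnc.enc b) = b := by cases b <;> rfl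

@[simp] theorem toL_enc (l : List α) : toL (TEnc.enc l) = l.map TEnc.enc := by
  induction l with
  | nil => rfl
  | cons a l ih => exact congrArg (TEnc.enc a :: ·) ih

theorem Ch.exBT {Q : α → BT → Prop} {B : α → ℕ} (hB : PTime B) (hB' : PB B)
    (h : Ch fun x : α × BT => Q x.1 x.2) : Ch fun a => ∃ t, sz t ≤ B a ∧ Q a t := by
  have h1 : Ch fun x : α × BT => sz x.2 ≤ B x.1 := Ch.of (by fun_prop)
  refine (Ch.ex (Q := fun a y => sz (parse y.bits) ≤ B a ∧ Q a (parse y.bits))
    (N := fun a => 2 ^ (B a + 1)) (by fun_prop)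
    ((h1.and h).comp (g := fun x : α × ℕ => (x.1, parse x.2.bits)) (by fun_prop))).of_iff fun a =>
      ⟨fun ⟨_, _, h⟩ => ⟨_, h⟩, fun ⟨t, h1, h2⟩ => ?_⟩
  have : ∀ l : List Bool, (val (l ++ [true])).bits = l ++ [true] := fun l => by
    induction l with
    | nil => simp
    | cons b l ih =>
      refine (Nat.bits_append_bit _ b fun h => ?_).trans (congrArg _ ih)
      simp [show val (l ++ [true]) = 0 from h] at ih
  refine ⟨val (t.ser ++ [true]), (val_lt _).trans_le (Nat.pow_le_pow_right two_pos ?_), ?_⟩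
  · simpa using! h1
  · rw [this, parse_ser]; exact ⟨h1, h2⟩

/-! ### the bridge -/

theorem card_coins (n : ℕ) (R : ℕ → Bool) : (univ.filter fun y : Fin n → Bool =>
    R (val (List.ofFn y)) = true).card = ((range (2 ^ n)).filter (R · = true)).card := by
  have h1 : ∀ l m : List Bool, l.length = m.length → val l = val m → l = m := fun l => by
    induction l with
    | nil => intro m h _; simpa using h.symm
    | cons b l ih =>
      rintro (_ | ⟨c, m⟩) h h' <;> simp at h h'
      cases b <;> cases c <;> simp at h' ⊢ <;> first | exact ih m h h' | omega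
  have h2 : Function.Injective fun y : Fin n → Bool => val (List.ofFn y) := fun y z h =>
    List.ofFn_injective (h1 _ _ (by simp) h)
  rw [← eq_of_subset_of_card_le (s := univ.image fun y : Fin n → Bool => val (List.ofFn y))
    (t := range (2 ^ n)) (fun z => by simp +contextual [eq_comm (b := z), (val_lt _).trans_eq])
    (by simp [card_image_of_injective _ h2]), filter_image, card_image_of_injective _ h2]

theorem ptime_eval (q : Polynomial ℕ) {f : α → ℕ} (hf : PTime f) : PTime fun a => q.eval (f a) := by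
  induction q using Polynomial.induction_on' with
  | add p q hp hq => simpa using hp.add hq
  | monomial k a => simpa using by fun_prop

theorem K.level {P : List Bool → Prop} (h : K j _ P) : {x | P x} ∈ Level j := by
  induction j generalizing P with
  | zero => exact let ⟨f, h1, h2⟩ := h; ⟨f, h1.toTM, h2⟩
  | succ j ih =>
    obtain ⟨Q, h0, N, k, d, h1, h2, h3, h4⟩ := h
    obtain ⟨q, hq⟩ := (h1.add h2).sz_PB
    let c := q.comp (4 * .X + 1)
    have hc : ∀ x, N x + k x < 2 ^ c.eval x.length := fun x => (lt_two_pow_sz _).trans_le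
      (Nat.pow_le_pow_right two_pos ((hq x).trans (by
        simpa [c, mul_comm] using eval_mono q (sz_list_le x fun b _ => sz_bool_le b))))
    obtain ⟨e, he⟩ : ∃ e : List Bool → ℕ, e = fun x => 2 ^ c.eval x.length := ⟨_, rfl⟩
    have : PTime e := he ▸ (PTime.const 2).pow (ptime_eval c PTime.id.length) (by fun_prop)
    refine Set.mem_biUnion (ih (h0.comp (g := fun w => ((toL (toP (parse w)).1).map toB,
      val ((toL (toP (parse w)).2).map toB))) (by fun_prop))) ⟨c + 1, 1, fun x => encode (x.1, x.2.1),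
      fun x => if val x.2.1 < e x.1 then
        decide (val x.2.1 < N x.1) && d (x.1, val x.2.1, x.2.2.headD false)
        else decide (val x.2.1 + k x.1 < 2 * e x.1),
      PTime.toTM (by fun_prop), PTime.toTM (by fun_prop), fun x => ?_⟩
    have h5 : ∀ x y : List Bool, parse (encode (x, y)) = TEnc.enc (x, y) := fun x y => by
      simpa [encode] using parse_ser (TEnc.enc (x, y)) []
    rw [Polynomial.eval_add, Polynomial.eval_one]
    simp only [Set.mem_ofPred_eq, h4, answers, h5, toP_enc, he,
      toL_enc, List.map_map, Function.comp_def, toB_enc, List.map_id', List.nil_append,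
      List.headD_cons]
    rw [card_coins _ fun z => if z < 2 ^ c.eval x.length then decide (z < N x) &&
      d (x, z, decide (Q (x, z))) else decide (z + k x < 2 * 2 ^ c.eval x.length), pow_succ]
    have := hc x
    generalize 2 ^ c.eval x.length = M at this
    rw [show (range (M * 2)).filter _ = ((range (N x)).filter fun y =>
      d (x, y, decide (Q (x, y))) = true) ∪ Ico M (2 * M - k x) by ext; simp; grind,
      card_union_of_disjoint (by simp [disjoint_left]; omega), Nat.card_Ico]
    omega

theorem Ch.mem {P : List Bool → Prop} (h : Ch P) : {x | P x} ∈ CH :=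
  let ⟨j, h⟩ := h; Set.mem_iUnion.2 ⟨j, h.level⟩

end Vale.Agent.P337
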