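import Mathlib
import Vale.Agent.Lib.PTime.Defs

/-! The counting hierarchy and the existential theory of the reals. -/

namespace Vale.Agent.P337

open Vale.Agent.PT

/-- The class P: languages decided by a Turing machine in polynomial time. -/
def ClassP : Set (Set (List Bool)) :=
  {L | ∃ f : List Bool → Bool, PolyTimeTM f ∧ ∀ x, x ∈ L ↔ f x = true}

open Classical in
/-- The answers of the oracle `A` to the first `k` adaptive queries, on input `x` and coins `y`;
`q` computes the next query from the input, the coins and the previous answers. -/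
noncomputable def answers (A : Set (List Bool)) (q : List Bool × List Bool × List Bool → List Bool)
    (x y : List Bool) : ℕ → List Bool
  | 0 => []
  | k + 1 => answers A q x y k ++ [decide (q (x, y, answers A q x y k) ∈ A)]

/-- The class PP relative to the oracle `A`: on input `x` toss `c(|x|)` fair coins, ask `k(|x|)`
adaptive oracle queries, decide by `d`; `x` is in the language iff more than half of the coin
sequences lead to acceptance. -/
def PPrel (A : Set (List Bool)) : Set (Set (List Bool)) :=
  {L | ∃ (c k : Polynomial ℕ) (q : List Bool × List Bool × List Bool → List Bool)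
    (d : List Bool × List Bool × List Bool → Bool), PolyTimeTM q ∧ PolyTimeTM d ∧ ∀ x, x ∈ L ↔
      2 ^ c.eval x.length < 2 * (Finset.univ.filter fun y : Fin (c.eval x.length) → Bool =>
        d (x, List.ofFn y, answers A q x (List.ofFn y) (k.eval x.length)) = true).card}

/-- The levels of the counting hierarchy. -/
def Level : ℕ → Set (Set (List Bool))
  | 0 => ClassP
  | j + 1 => ⋃ A ∈ Level j, PPrel A

/-- The counting hierarchy. -/
def CH : Set (Set (List Bool)) := ⋃ j, Level j

/-- Integer polynomials in `n` variables as lists of monomials (coefficient, exponent vector). -/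
abbrev Poly (n : ℕ) : Type := List (ℤ × (Fin n → ℕ))

/-- The real value of a polynomial. -/
def Poly.eval {n : ℕ} (p : Poly n) (x : Fin n → ℝ) : ℝ :=
  (p.map fun m => (m.1 : ℝ) * ∏ i, x i ^ m.2 i).sum

/-- The code of a polynomial: coefficients in binary, exponents in unary. -/
def Poly.code {n : ℕ} (p : Poly n) : List (ℤ × List (List Unit)) :=
  p.map fun m => (m.1, List.ofFn fun i => List.replicate (m.2 i) ())

/-- Quantifier-free formulas in `n` real variables. -/
inductive Fm (n : ℕ) : Type
  | eq : Poly n → Fm n
  | gt : Poly n → Fm n
  | not : Fm n → Fm n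
  | and : Fm n → Fm n → Fm n
  | or : Fm n → Fm n → Fm n

/-- Truth of a formula at a point. -/
def Fm.Holds {n : ℕ} (x : Fin n → ℝ) : Fm n → Prop
  | .eq p => p.eval x = 0
  | .gt p => p.eval x > 0
  | .not a => ¬ a.Holds x
  | .and a b => a.Holds x ∧ b.Holds x
  | .or a b => a.Holds x ∨ b.Holds x

/-- The binary tree coding a formula: a tag and the codes of the parts. -/
def Fm.tree {n : ℕ} : Fm n → BT
  | .eq p => TEnc.enc ((0 : ℕ), p.code)
  | .gt p => TEnc.enc ((1 : ℕ), p.code)
  | .not a => TEnc.enc ((2 : ℕ), a.tree)
  | .and a b => TEnc.enc ((3 : ℕ), a.tree, b.tree)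
  | .or a b => TEnc.enc ((4 : ℕ), a.tree, b.tree)

/-- The codes (number of variables in unary, then the formula) of true existential sentences. -/
def ETR : Set (List Bool) := {w | ∃ (n : ℕ) (φ : Fm n),
  w = encode (List.replicate n (), φ.tree) ∧ ∃ x : Fin n → ℝ, φ.Holds x}

end Vale.Agent.P337
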