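import Vale.Agent.P337.Feas

/-! The existential theory of the reals is in the counting hierarchy. -/

namespace Vale.Agent.P337

open Vale.Agent.PT Finset Classical MvPolynomial TEnc

section
variable {σ ι : Type} {p q : MvPolynomial σ ℤ} {e e' H H' : ℕ}

/-- Degree and size bound. -/
def Sb (e H : ℕ) (q : MvPolynomial σ ℤ) : Prop :=
  Le e q ∧ ∀ (x : σ → ℂ) (r : ℝ), 1 ≤ r → (∀ i, ‖x i‖ ≤ r) → ‖aeval x q‖ ≤ H * r ^ e

theorem Sb.mono (h : Sb e H q) (he : e ≤ e') (hH : H ≤ H') : Sb e' H' q :=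
  ⟨h.1.mono (by omega), fun x r hr hx => (h.2 x r hr hx).trans (by gcongr)⟩

theorem Sb.C (c : ℤ) : Sb 0 c.natAbs (C c : MvPolynomial σ ℤ) := ⟨.C c, by simp⟩

theorem Sb.X (i : σ) : Sb 1 1 (X i) := ⟨.X i, fun _ _ _ h => by simpa using h i⟩

theorem Sb.add (h : Sb e H p) (h' : Sb e H' q) : Sb e (H + H') (p + q) := ⟨h.1.add h'.1,
  fun x r hr hx => by grw [map_add, norm_add_le, h.2 x r hr hx, h'.2 x r hr hx]; simp [add_mul]⟩

theorem Sb.mul (h : Sb e H p) (h' : Sb e' H' q) : Sb (e + e') (H * H') (p * q) := ⟨h.1.mul h'.1,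
  fun x r hr hx => by
    grw [map_mul, norm_mul, h.2 x r hr hx, h'.2 x r hr hx]; exact le_of_eq (by push_cast; ring)⟩

theorem Sb.sum {s : Finset ι} {f : ι → MvPolynomial σ ℤ} (h : ∀ i ∈ s, Sb e H (f i)) :
    Sb e (s.card * H) (∑ i ∈ s, f i) := by
  induction s using Finset.cons_induction with
  | empty => simpa using (Sb.C 0).mono e.zero_le le_rfl
  | cons i s hi ih =>
    simpa [add_mul, add_comm, sum_insert hi, hi] using (h i (by simp)).add (ih fun j hj => h j (by simp [hj]))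

theorem Sb.prod {s : Finset ι} {f : ι → MvPolynomial σ ℤ} (h : ∀ i ∈ s, Sb e 1 (f i)) :
    Sb (s.card * e) 1 (∏ i ∈ s, f i) := by
  induction s using Finset.cons_induction with
  | empty => simpa using! Sb.C 1
  | cons i s hi ih =>
    simpa [add_mul, add_comm, prod_insert hi, hi] using (h i (by simp)).mul (ih fun j hj => h j (by simp [hj]))

end

/-- Codes of polynomials. -/
abbrev Code : Type := List (ℤ × List (List Unit))

/-- The polynomial with a given code. -/
noncomputable def pol (n : ℕ) (c : Code) : MvPolynomial (Fin n) ℤ := ∑ j ∈ range c.length,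
  C (c.getD j (0, [])).1 * ∏ i : Fin n, X i ^ ((c.getD j (0, [])).2.getD i []).length

theorem sz_getD {α : Type} [TEnc α] (l : List α) (j : ℕ) {d : α} (h : j < l.length ∨ sz d ≤ 1) :
    sz (l.getD j d) ≤ sz l := by
  rcases lt_or_ge j l.length with h' | h'
  · exact sz_le_of_mem (by simp [h'])
  · simpa [h'] using (h.resolve_left h'.not_gt).trans (sz_pos l)

theorem sb_pol (n : ℕ) {c : Code} {s : ℕ} (h : sz c ≤ s) : Sb (n * s) (s * 2 ^ s) (pol n c) := by
  refine (Sb.sum (H := 2 ^ s) fun j hj => ?_).mono le_rfl (by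
    simpa using ((length_lt_sz c).trans_le h).le)
  have := (sz_getD c j (d := (0, [])) (.inl (mem_range.1 hj))).trans h
  generalize c.getD j (0, []) = m at this ⊢
  rw [show sz m = _ from sz_prod m.1 m.2] at this
  refine ((Sb.C _).mul (Sb.prod (e := s) fun i _ => ?_)).mono (by simp) (by
    simpa using (natAbs_lt_two_pow_sz _).le.trans (Nat.pow_le_pow_right two_pos (by omega)))
  have := (length_lt_sz _).trans_le (sz_getD m.2 i (d := []) (.inr le_rfl))
  simpa using (Sb.prod (s := range _) fun _ _ => Sb.X i).mono (by simp at this ⊢; omega) le_rfl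

theorem aeval_pol {k n : ℕ} (h : k ≤ n) (p : Poly k) (x : Fin n → ℝ) :
    aeval x (pol n p.code) = p.eval fun i => x (i.castLE h) := by
  induction p with
  | nil => simp [pol, Poly.code, Poly.eval]
  | cons m p ih =>
    simp only [pol, Poly.code, Poly.eval, List.map_cons, List.length_cons, sum_range_succ', map_add,
      List.getD_cons_succ, List.getD_cons_zero, List.sum_cons] at ih ⊢
    rw [ih, add_comm, map_mul, map_prod]
    congr 1
    refine congrArg₂ _ (by simp) (prod_of_injOn (Fin.castLE h) (Fin.castLE_injective h).injOn (by simp)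
      (fun i _ hi => ?_) (by simp)).symm
    have : k ≤ i := not_lt.1 fun e => hi ⟨⟨i, e⟩, by simp, rfl⟩
    simp [this]

/-- The equation attached to a literal. -/
def eqn {R : Type} [CommRing R] (t : ℕ) (b : Bool) (v y : R) : R := if t = 0 then
  (if b then v else v * y + -1) else if t = 1 then (if b then v * (y * y) + -1 else v + y * y) else 0

theorem eqn_iff (b : Bool) (v : ℝ) : ((∃ y, eqn 0 b v y = 0) ↔ (v = 0 ↔ b)) ∧
    ((∃ y, eqn 1 b v y = 0) ↔ (v > 0 ↔ b)) := by
  cases b <;> simp [eqn]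
  · exact ⟨⟨fun ⟨y, h⟩ e => by simp [e] at h, fun h => ⟨v⁻¹, by simp [h]⟩⟩,
      fun ⟨y, h⟩ => by nlinarith, fun h => ⟨√(-v), by simp [Real.mul_self_sqrt (neg_nonneg.2 h)]⟩⟩
  · exact ⟨fun ⟨y, h⟩ => by nlinarith [mul_self_nonneg y],
      fun h => ⟨√v⁻¹, by simp [Real.mul_self_sqrt (inv_nonneg.2 h.le), h.ne', -Real.sqrt_inv]⟩⟩

theorem Sb.eqn {σ : Type} {p : MvPolynomial σ ℤ} {e H : ℕ} (h : Sb e H p) (t b i) :
    Sb (e + 2) (H + 1) (eqn t b p (.X i)) := by
  have h1 : Sb (e + 2) 1 (-1 : MvPolynomial σ ℤ) := by simpa using (Sb.C (-1)).mono (by simp) le_rfl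
  have h2 := (Sb.X i).mul (Sb.X i)
  unfold P337.eqn
  split_ifs
  · exact h.mono (by omega) (by omega)
  · exact ((h.mul (.X i)).mono (by omega) (by omega)).add h1
  · exact ((h.mul h2).mono (by omega) (by omega)).add h1
  · exact (h.mono (by omega) le_rfl).add (h2.mono (by omega) le_rfl)
  · simpa using (Sb.C 0).mono (by simp) (by simp)

/-- Decoding a natural number. -/
def dN (t : BT) : ℕ := val ((toL t).map toB)

/-- Decoding a code. -/
def dC (t : BT) : Code := (toL t).map fun m => (if toB (toP (toP m).1).1 then -(dN (toP (toP m).1).2 : ℤ)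
  else dN (toP (toP m).1).2, (toL (toP m).2).map fun u => (toL u).map fun _ => ())

/-- Decoding a list of signed trees. -/
def dL (t : BT) : List (BT × Bool) := (toL t).map fun e => ((toP e).1, toB (toP e).2)

@[simp] theorem dN_enc (k : ℕ) : dN (enc k) = k := by
  rw [dN, show toL (enc k) = _ from toL_enc k.bits]; simp [Function.comp_def]

@[simp] theorem dC_enc (c : Code) : dC (enc c) = c := by
  have : ∀ z : ℤ, toP (enc z) = (enc (decide (z < 0)), enc z.natAbs) := fun _ => rfl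
  simp only [dC, toL_enc, List.map_map]
  refine List.map_id'' (fun ⟨z, l⟩ => ?_) c
  simp [this, Function.comp_def, -Nat.cast_natAbs]
  exact ⟨by omega, List.map_id'' (fun x => List.ext_getElem (by simp) (by simp)) l⟩

@[simp] theorem dL_enc (l : List (BT × Bool)) : dL (enc l) = l := by
  simp only [dL, toL_enc, List.map_map]
  exact List.map_id'' (fun ⟨z, l⟩ => by simp; rfl) l

/-- The local consistency condition. -/
def Ok (k : ℕ) (L : List (BT × Bool)) (e : BT × Bool) : Prop :=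
  ((e.1 = enc ((0 : ℕ), dC (toP e.1).2) ∨ e.1 = enc ((1 : ℕ), dC (toP e.1).2)) ∧
    ∀ m ∈ dC (toP e.1).2, m.2.length = k) ∨ ∃ a ∈ L, ∃ b ∈ L, (e.1, e.2) = (enc ((2 : ℕ), a.1), !a.2) ∨
    (e.1, e.2) = (enc ((3 : ℕ), a.1, b.1), a.2 && b.2) ∨ (e.1, e.2) = (enc ((4 : ℕ), a.1, b.1), a.2 || b.2)

/-- The polynomial attached to a list of signed trees. -/
noncomputable def ff (k : ℕ) (L : List (BT × Bool)) : MvPolynomial (Fin (k + L.length + 1)) ℤ :=
  ∑ i ∈ range L.length, eqn (dN (toP (L.getD i (.nil, false)).1).1) (L.getD i (.nil, false)).2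
    (pol _ (dC (toP (L.getD i (.nil, false)).1).2)) (X (.ofNat _ (k + i))) ^ 2

theorem aeval_ff (k : ℕ) (L : List (BT × Bool)) (x : Fin (k + L.length + 1) → ℝ) : 0 ≤ aeval x (ff k L) ∧
    (aeval x (ff k L) = 0 ↔ ∀ i : Fin L.length, eqn (dN (toP L[i].1).1) L[i].2
      (aeval x (pol _ (dC (toP L[i].1).2))) (x ⟨k + i, by omega⟩) = 0) := by
  simp only [ff, map_sum, map_pow]
  refine ⟨sum_nonneg fun _ _ => sq_nonneg _, ?_⟩
  rw [sum_eq_zero_iff_of_nonneg fun _ _ => sq_nonneg _, Fin.forall_iff]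
  refine forall_congr' fun i => (imp_congr_left mem_range).trans (forall_congr' fun hi => ?_)
  rw [sq_eq_zero_iff, show Fin.ofNat _ (k + i) = ⟨k + i, by omega⟩ from Fin.ext (Nat.mod_eq_of_lt (by omega))]
  simp [eqn, apply_ite (aeval x), hi]

theorem sound {k : ℕ} {L : List (BT × Bool)} (h : ∀ e ∈ L, Ok k L e) {x : Fin (k + L.length + 1) → ℝ}
    (hx : aeval x (ff k L) = 0) (s : ℕ) : ∀ e ∈ L, sz e.1 ≤ s → ∃ φ : Fm k, φ.tree = e.1 ∧
      (φ.Holds (fun i => x (i.castLE (by omega))) ↔ e.2) := by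
  induction s with
  | zero => exact fun e _ h => absurd (sz_pos e.1) (by omega)
  | succ s ih =>
    intro e he hs
    have h0 : ∀ {α β : Type} [TEnc α] [TEnc β] (a : α) (b : β), sz (enc (a, b)) = sz a + sz b + 1 := sz_prod
    obtain ⟨h1, h2⟩ | ⟨a, ha, b, hb, h1⟩ := h e he
    · obtain ⟨p, hp⟩ : ∃ p : Poly k, p.code = dC (toP e.1).2 := ⟨(dC (toP e.1).2).map fun m =>
        (m.1, fun i => (m.2.getD i []).length), by
        rw [Poly.code, List.map_map]
        refine (List.map_congr_left (g := id) fun m hm => ?_).trans (List.map_id _)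
        exact Prod.ext rfl (List.ext_getElem (by simp [h2 m hm])
          fun i _ (hi : i < m.2.length) => List.ext_getElem (by simp [hi]) (by simp))⟩
      obtain ⟨i, rfl⟩ := List.mem_iff_get.1 he
      have := (aeval_ff k L x).2.1 hx i
      rw [List.get_eq_getElem] at hp h1
      rw [Fin.getElem_fin, ← hp, aeval_pol (by omega)] at this
      rw [← hp] at h1
      rcases h1 with h1 | h1 <;> rw [h1, toP_enc, dN_enc] at this
      · exact ⟨.eq p, h1.symm, (eqn_iff _ _).1.1 ⟨_, this⟩⟩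
      · exact ⟨.gt p, h1.symm, (eqn_iff _ _).2.1 ⟨_, this⟩⟩
    · rcases h1 with h1 | h1 | h1 <;> obtain ⟨h1, h2⟩ := Prod.mk.inj h1 <;> rw [h1, h0] at hs
      · obtain ⟨φ, a1, a2⟩ := ih a ha (by omega)
        exact ⟨φ.not, by rw [h1, ← a1]; rfl, by simp [Fm.Holds, a2, h2]⟩
      all_goals
        rw [sz_prod] at hs
        obtain ⟨φ, a1, a2⟩ := ih a ha (by omega)
        obtain ⟨ψ, b1, b2⟩ := ih b hb (by omega)
      · exact ⟨φ.and ψ, by rw [h1, ← a1, ← b1]; rfl, by simp [Fm.Holds, a2, b2, h2]⟩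
      · exact ⟨φ.or ψ, by rw [h1, ← a1, ← b1]; rfl, by simp [Fm.Holds, a2, b2, h2]⟩

/-- The subformulas. -/
def Fm.subs {k : ℕ} : Fm k → List (Fm k)
  | .eq p => [.eq p]
  | .gt p => [.gt p]
  | .not a => .not a :: a.subs
  | .and a b => .and a b :: (a.subs ++ b.subs)
  | .or a b => .or a b :: (a.subs ++ b.subs)

theorem Fm.subs_spec {k : ℕ} (φ : Fm k) : φ ∈ φ.subs ∧ φ.subs.length ≤ sz φ.tree ∧ ∀ ψ ∈ φ.subs,
    sz ψ.tree ≤ sz φ.tree ∧ ((∃ p, ψ = .eq p ∨ ψ = .gt p) ∨ ∃ a ∈ φ.subs, ∃ b ∈ φ.subs,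
      ψ = a.not ∨ ψ = a.and b ∨ ψ = a.or b) := by
  have h0 : ∀ {α β : Type} [TEnc α] [TEnc β] (a : α) (b : β), sz (enc (a, b)) = sz a + sz b + 1 := sz_prod
  induction φ <;> simp only [subs, tree, h0, sz_prod, List.forall_mem_cons, List.forall_mem_append] <;>
    grind

theorem complete {k : ℕ} (φ : Fm k) {x : Fin k → ℝ} (hx : φ.Holds x) : ∃ L : List (BT × Bool),
    sz L ≤ sz φ.tree * (sz φ.tree + 5) + 1 ∧ (φ.tree, true) ∈ L ∧ (∀ e ∈ L, Ok k L e) ∧
      ∃ y : Fin _ → ℝ, aeval y (ff k L) = 0 := by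
  obtain ⟨h1, h2, h3⟩ := φ.subs_spec
  obtain ⟨L, hL⟩ : ∃ L, L = φ.subs.map fun ψ => (ψ.tree, decide (ψ.Holds x)) := ⟨_, rfl⟩
  have h4 : ∀ e ∈ L, ∃ y : ℝ, ∀ z : Fin (k + L.length + 1) → ℝ, (∀ i : Fin k, z (i.castLE (by omega)) = x i) →
      eqn (dN (toP e.1).1) e.2 (aeval z (pol _ (dC (toP e.1).2))) y = 0 := fun e he => by
    obtain ⟨ψ, -, rfl⟩ := List.mem_map.1 (hL ▸ he)
    rcases ψ with p | p | _ | _ | _
    · exact ((eqn_iff (decide ((Fm.eq p).Holds x)) (p.eval x)).1.2 decide_eq_true_iff.symm).imp fun y hy z hz => by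
        simpa [Fm.tree, aeval_pol (show k ≤ k + L.length + 1 by omega), hz]
    · exact ((eqn_iff (decide ((Fm.gt p).Holds x)) (p.eval x)).2.2 decide_eq_true_iff.symm).imp fun y hy z hz => by
        simpa [Fm.tree, aeval_pol (show k ≤ k + L.length + 1 by omega), hz]
    all_goals simp [Fm.tree, eqn]
  choose! y hy using h4
  refine ⟨L, (sz_list_le L (B := sz φ.tree + 4) fun e he => ?_).trans (by gcongr; simpa [hL]),
    hL ▸ List.mem_map.2 ⟨φ, h1, by simp [hx]⟩, fun e he => ?_, fun i => if h : i < k then x ⟨i, h⟩ else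
      y (L.getD (i - k) (.nil, false)), (aeval_ff _ _ _).2.2 fun i => by simpa using hy L[i] (by simp) _ (by simp)⟩
  all_goals obtain ⟨ψ, hψ, rfl⟩ := List.mem_map.1 (hL ▸ he)
  · have := (h3 ψ hψ).1
    have := sz_bool_le (decide (ψ.Holds x))
    rw [sz_prod]; omega
  · obtain ⟨p, h⟩ | ⟨a, ha, b, hb, h⟩ := (h3 ψ hψ).2
    · exact .inl (by rcases h with rfl | rfl <;> simp [Fm.tree] <;> simp +contextual [Poly.code, eq_comm])
    · exact .inr ⟨_, hL ▸ List.mem_map_of_mem ha, _, hL ▸ List.mem_map_of_mem hb, by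
        by_cases a.Holds x <;> by_cases b.Holds x <;> rcases h with rfl | rfl | rfl <;>
          simp [Fm.tree, Fm.Holds, *]⟩

variable {α : Type} [TEnc α] {V : α → Prop} {m n k : α → ℕ} {L : α → List (BT × Bool)}

@[fun_prop] theorem ptime_dN {f : α → BT} (h : PTime f) : PTime fun a => dN (f a) := by
  unfold dN; fun_prop

@[fun_prop] theorem ptime_dC {f : α → BT} (h : PTime f) : PTime fun a => dC (f a) := by
  unfold dC; fun_prop

@[fun_prop] theorem ptime_dL {f : α → BT} (h : PTime f) : PTime fun a => dL (f a) := by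
  unfold dL; fun_prop

attribute [local irreducible] PTime PB Ar Ch Pv

theorem Pv.pol [∀ a, NeZero (n a)] {c : α → Code} (hm : PTime m) (hn : PTime n) (hc : PTime c) :
    Pv V m n fun a => pol (n a) (c a) := by
  have : PTime fun x : α × ℕ => (c x.1).getD x.2 (0, []) := by fun_prop
  exact .sum hc.length (.mul (.C (.of (hm.comp .fst_id) this.fst)) (.prodF (hn.comp .fst_id)
    (.pow (.X (hn.comp (.fst .fst_id)) .snd_id) ((this.snd.comp .fst_id).list_getD (PTime.snd_id.mod
      (hn.comp (.fst .fst_id))) (.const _)).length)))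

theorem Pv.eqn {p y : ∀ a, MvPolynomial (Fin (n a)) ℤ} {t : α → ℕ} {b : α → Bool} (hm : PTime m)
    (ht : PTime t) (hb : PTime b) (hp : Pv V m n p) (hy : Pv V m n y) :
    Pv V m n fun a => eqn (t a) (b a) (p a) (y a) :=
  have h0 : Ch fun a => b a = true := .of hb.decide_eq_true
  have h1 := (Pv.C (V := V) (n := n) (.of hm (.const 1))).neg
  .ite (.of (ht.decide_eq (.const 0))) (.ite h0 hp ((hp.mul hy).add h1)) (.ite (.of (ht.decide_eq
    (.const 1))) (.ite h0 ((hp.mul (hy.mul hy)).add h1) (hp.add (hy.mul hy)))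
    (by simpa using Pv.C (.of hm (.const 0))))

theorem Ch.ff (hk : PTime k) (hk' : PB k) (hL : PTime L) :
    Ch fun a => ∃ y : Fin _ → ℝ, aeval y (ff (k a) (L a)) = 0 := by
  have h1 : PTime fun a => (L a).map fun e => dC (toP e.1).2 := by fun_prop
  have h2 := (hk.add hL.length).add (.const 1)
  have h3 := fun a => Sb.sum (s := range (L a).length) fun i hi => show Sb _ _ (_ ^ 2) from sq
    (M := MvPolynomial _ ℤ) _ ▸ (fun h => Sb.mul h h) ((sb_pol (k a + (L a).length + 1)
      (c := dC (toP ((L a).getD i (.nil, false)).1).2) (sz_le_of_mem (List.mem_map_of_mem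
        (f := fun e : BT × Bool => dC (toP e.1).2) (l := L a) (by simp [mem_range.1 hi])))).eqn
      (dN (toP ((L a).getD i (.nil, false)).1).1) ((L a).getD i (.nil, false)).2 (.ofNat _ (k a + i)))
  have h4 := ((Db.of h1.sz).mul ((Db.of (.const 2)).pow h1.sz)).add (.of (.const 1))
  refine .feas (t := fun _ => 0) h2 ((hk'.add (.length hL)).add (.const 1)) ((h2.mul h1.sz).add (.const 2))
    (.const 0) (((Db.of hL.length).mul (h4.mul h4)).add (.of (.const 1))) (fun β _ g V m hg hm _ => ?_)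
    (fun a => (h3 a).1.mono (by simp [two_mul])) (fun a => Nat.le_add_left _ _) (fun a => ((h3 a).mono
      (two_mul _).ge (by simp)).2) fun a x => (aeval_ff _ _ x).1
  have g1 : PTime fun x : (β × ℕ) × ℕ => g x.1.1 := hg.comp (.fst .fst_id)
  have g2 : PTime fun x : (β × ℕ) × ℕ => m x.1.1 := hm.comp (.fst .fst_id)
  have g3 := (hL.comp g1).list_getD .snd_id (.const (.nil, false))
  exact .sum (hL.comp (hg.comp .fst_id)).length (.pow (.eqn g2 (ptime_dN (ptime_toP g3.fst).fst) g3.snd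
    (.pol g2 (h2.comp g1) (ptime_dC (ptime_toP g3.fst).snd)) (.X (h2.comp g1) ((hk.comp g1).add .snd_id)))
    (.const 2))

theorem ptime_Ok {e : α → BT × Bool} (hk : PTime k) (hL : PTime L) (he : PTime e) :
    PTime fun a => decide (Ok (k a) (L a) (e a)) := by
  have h1 := ptime_dC (ptime_toP he.fst).snd
  have h2 := he.comp (f := fun x : (α × BT × Bool) × BT × Bool => x.1.1) (.fst .fst_id)
  have h3 := h2.fst.prodMk h2.snd
  refine PTime.decide_or (.decide_and (.decide_or (he.fst.decide_eq ((PTime.const (0 : ℕ)).prodMk h1).enc)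
    (he.fst.decide_eq ((PTime.const (1 : ℕ)).prodMk h1).enc)) (.decide_forall_mem h1
      (p := fun a m => m.2.length = k a) (by fun_prop))) (.decide_exists_mem hL (.decide_exists_mem
      (hL.comp .fst_id) (.decide_or (h3.decide_eq ?_) (.decide_or (h3.decide_eq ?_)
        (h3.decide_eq ?_))))) <;> fun_prop

theorem etr : ETR ∈ CH := by
  have h1 : PTime fun x : List Bool × BT => toP (parse x.1) := by fun_prop
  have h2 : PTime fun x : List Bool × BT => dL x.2 := by fun_prop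
  have h3 := ptime_toL h1.fst
  have h4 : ∀ (l : List Unit) (t : BT), parse (encode (l, t)) = enc (l, t) := fun l t => by
    simpa [encode] using parse_ser (enc (l, t)) []
  convert (Ch.exBT (B := fun w : List Bool => w.length * (w.length + 5) + 1) (Q := fun w t =>
    (w = encode (List.replicate (toL (toP (parse w)).1).length (), (toP (parse w)).2) ∧
      ((toP (parse w)).2, true) ∈ dL t ∧ ∀ e ∈ dL t, Ok (toL (toP (parse w)).1).length (dL t) e) ∧
      ∃ y : Fin _ → ℝ, aeval y (ff (toL (toP (parse w)).1).length (dL t)) = 0) (by fun_prop) (by fun_prop)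
    (.and (.and (.of (PTime.fst_id.decide_eq ((PTime.replicate_len h3 (.const ())).prodMk h1.snd).encode))
      (.and (.of (.decide_mem (h1.snd.prodMk (.const true)) h2)) (.of (.decide_forall_mem h2
        (ptime_Ok (h3.length.comp .fst_id) (h2.comp .fst_id) .snd_id)))))
      (.ff h3.length (.length h3) h2))).mem
  ext w
  constructor
  · rintro ⟨n, φ, rfl, x, hx⟩
    obtain ⟨L, a1, a2, a3, a4⟩ := complete φ hx
    have : (toL (toP (parse (encode (List.replicate n (), φ.tree)))).1).length = n := by simp [h4]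
    have a5 : sz φ.tree ≤ sz (List.replicate n (), φ.tree) := by rw [sz_prod]; omega
    refine ⟨enc L, a1.trans (by gcongr <;> exact a5), ?_⟩
    rw [this, dL_enc, h4]
    exact ⟨⟨rfl, a2, a3⟩, a4⟩
  · rintro ⟨t, -, ⟨a1, a2, a3⟩, y, hy⟩
    obtain ⟨φ, b1, b2⟩ := sound a3 hy _ _ a2 le_rfl
    exact ⟨_, φ, b1 ▸ a1, _, b2.2 rfl⟩

end Vale.Agent.P337
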