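import Vale.Agent.P337.Ar

/-! The sign of a huge integer from its residues. -/

namespace Vale.Agent.P337

open Vale.Agent.PT Finset Classical

variable {α : Type} [TEnc α] {X : α → ℤ} {t T E : α → ℕ}

theorem card_primes (t e : ℕ) :
    e ≤ ((range ((t + e + 7) ^ 2 + 1)).filter fun q => q.Prime ∧ t < q).card := by
  obtain ⟨k, hk⟩ : ∃ k, k = t + e + 7 := ⟨_, rfl⟩
  have h1 : k ^ 2 + 1 ≤ 2 ^ k := by
    refine Nat.le_induction (m := 5) (by norm_num) (fun n _ ih => ?_) k (by omega)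
    nlinarith [pow_succ 2 n]
  have h2 := (Chebyshev.two_pow_le_mul_lcmUpto (k ^ 2)).trans (Nat.mul_le_mul h1
    ((Nat.lcmUpto_eq_prod_pow_log _).trans_le (prod_le_pow_card _ _ (2 ^ k) fun p _ =>
      (Nat.pow_log_le_self p (by subst hk; positivity)).trans (by omega))))
  rw [← pow_mul, ← pow_add, Nat.pow_le_pow_iff_right one_lt_two] at h2
  have h3 := (card_le_card (show Nat.primesLE (k ^ 2) ⊆ range (t + 1) ∪ (range (k ^ 2 + 1)).filter
    fun q => q.Prime ∧ t < q from fun q => by simp [Nat.mem_primesLE]; grind)).trans (card_union_le _ _)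
  rw [card_range] at h3
  rw [← hk]
  nlinarith

theorem crt_floor {S : Finset ℕ} (hS : ∀ q ∈ S, q.Prime) {g : ℕ → ℕ} {x : ℤ} (W : ℕ)
    (h : ∀ q ∈ S, (g q : ZMod q) = x * (∏ r ∈ S.erase q, r) ^ (q - 2)) : ∃ (k : ℤ) (e : ℝ),
      0 ≤ e ∧ e ≤ S.card ∧ ((∑ q ∈ S, W * g q / q : ℕ) - W * k : ℤ) = W * (x / ∏ q ∈ S, (q : ℝ)) - e := by
  obtain ⟨k, hk⟩ : (∏ q ∈ S, (q : ℤ)) ∣ ∑ q ∈ S, g q * ∏ r ∈ S.erase q, (r : ℤ) - x := by
    refine prod_dvd_of_coprime (fun p hp q hq h => Nat.isCoprime_iff_coprime.2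
      ((Nat.coprime_primes (hS p hp) (hS q hq)).2 h)) fun q hq => ?_
    have := Fact.mk (hS q hq)
    rw [← ZMod.intCast_zmod_eq_zero_iff_dvd]
    push_cast
    rw [sum_eq_single_of_mem q hq fun p _ hp => by
      rw [prod_eq_zero (mem_erase.2 ⟨hp.symm, hq⟩) (by simp), mul_zero], h q hq, mul_assoc,
      Nat.cast_prod, ← pow_succ, show q - 2 + 1 = q - 1 by have := (hS q hq).two_le; omega,
      ZMod.pow_card_sub_one_eq_one (prod_ne_zero_iff.2 fun r hr h => (mem_erase.1 hr).1 ((Nat.prime_dvd_prime_iff_eq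
        (hS q hq) (hS r (mem_erase.1 hr).2)).1 ((ZMod.natCast_eq_zero_iff _ _).1 h)).symm)]
    ring
  refine ⟨k, ∑ q ∈ S, Int.fract (W * g q / q : ℝ), sum_nonneg fun _ _ => Int.fract_nonneg _,
    by simpa using sum_le_card_nsmul _ _ (1 : ℝ) fun _ _ => (Int.fract_lt_one _).le, ?_⟩
  have h0 : ∀ q ∈ S, (q : ℝ) ≠ 0 := fun q hq => Nat.cast_ne_zero.2 (hS q hq).ne_zero
  have h1 : (x : ℝ) / ∏ q ∈ S, (q : ℝ) = ∑ q ∈ S, (g q / q : ℝ) - k := by
    have := congrArg (Int.cast (R := ℝ)) hk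
    push_cast at this
    rw [div_eq_iff (prod_ne_zero_iff.2 h0), sub_mul, sum_mul, sum_congr rfl fun q hq => by
      rw [← mul_prod_erase _ _ hq, ← mul_assoc, div_mul_cancel₀ _ (h0 q hq)]]
    linarith
  simp only [h1, mul_sub, mul_sum, ← Int.self_sub_floor, sum_sub_distrib, mul_div_assoc']
  norm_cast
  simp only [Int.floor_div_natCast, Int.floor_natCast]
  push_cast
  ring

theorem sign_math {T n : ℕ} (hT : 0 < T) {y : ℝ} (hy : |y| ≤ 3 / 8) (hn : 0 < y → 1 ≤ 2 ^ n * y)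
    {Z : ℕ → ℕ} (h : ∀ s, ∃ (k : ℤ) (e : ℝ), 0 ≤ e ∧ e ≤ T ∧
      ((Z s - (16 * T : ℕ) * k : ℤ) : ℝ) = (16 * T : ℕ) * (2 ^ s * y) - e) :
    (∃ s < n + 1, (2 * T ≤ Z s % (16 * T) ∧ Z s % (16 * T) < 8 * T) ∧
      ∀ u < s, Z u % (16 * T) < 2 * T ∨ 14 * T ≤ Z u % (16 * T)) ↔ 0 < y := by
  have a0 : (0 : ℝ) < T := by exact_mod_cast hT
  have a1 : ∀ s, |2 ^ s * y| ≤ 3 / 8 → ∃ (D : ℤ) (e : ℝ), 0 ≤ e ∧ e ≤ T ∧
      D = 16 * T * (2 ^ s * y) - e ∧ -7 * T ≤ D ∧ D ≤ 6 * T ∧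
        ((Z s % (16 * T) : ℕ) : ℤ) = if D < 0 then D + 16 * T else D := fun s hs => by
    obtain ⟨k, e, h1, h2, h3⟩ := h s
    rw [abs_le] at hs
    rw [Nat.cast_mul, Nat.cast_mul, Nat.cast_ofNat, Nat.cast_ofNat] at h3
    have b1 : -7 * T ≤ Z s - (16 * T : ℤ) * k := by
      rw [← Int.cast_le (R := ℝ), h3]; push_cast; nlinarith
    have b2 : Z s - (16 * T : ℤ) * k ≤ 6 * T := by
      rw [← Int.cast_le (R := ℝ), h3]; push_cast; nlinarith
    refine ⟨_, e, h1, h2, h3, b1, b2, ?_⟩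
    push_cast
    split_ifs
    · rw [← Int.add_mul_emod_self_left _ _ (1 - k), Int.emod_eq_of_lt] <;> linarith
    · rw [← Int.add_mul_emod_self_left _ _ (-k), Int.emod_eq_of_lt] <;> linarith
  have a2 : ∀ s, (∀ u < s, Z u % (16 * T) < 2 * T ∨ 14 * T ≤ Z u % (16 * T)) →
      |2 ^ s * y| ≤ 3 / 8 := fun s => by
    induction s with
    | zero => simpa using hy
    | succ s ih =>
      intro H
      obtain ⟨D, e, h1, h2, h3, h4, h5, h6⟩ := a1 s (ih fun u hu => H u (by omega))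
      have := H s (by omega)
      have b1 : (-2 * T : ℝ) ≤ D := by exact_mod_cast (by omega : -2 * (T : ℤ) ≤ D)
      have b2 : (D : ℝ) ≤ 2 * T := by exact_mod_cast (by omega : D ≤ 2 * (T : ℤ))
      rw [pow_succ', mul_assoc, abs_le]
      constructor <;> nlinarith
  refine ⟨fun ⟨s, _, h1, h2⟩ => ?_, fun h0 => ?_⟩
  · obtain ⟨D, e, h1, -, h3, h4, h5, h6⟩ := a1 s (a2 s h2)
    have b1 : (0 : ℝ) < D := by exact_mod_cast (by omega : 0 < D)
    exact (mul_pos_iff_of_pos_left (show (0 : ℝ) < 2 ^ s by positivity)).1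
      ((mul_pos_iff_of_pos_left (show (0 : ℝ) < 16 * T by positivity)).1 (by linarith))
  · have : ∃ s < n, ¬ (Z s % (16 * T) < 2 * T ∨ 14 * T ≤ Z s % (16 * T)) := by
      by_contra! H
      linarith [(abs_le.1 (a2 n H)).2, hn h0]
    have b0 := fun u hu => not_not.1 fun h => Nat.find_min this (m := u) hu
      ⟨hu.trans (Nat.find_spec this).1, h⟩
    obtain ⟨b1, b2⟩ := Nat.find_spec this
    obtain ⟨D, e, -, h2, h3, h4, h5, h6⟩ := a1 _ (a2 _ b0)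
    have b3 : -(T : ℤ) ≤ D := by
      rw [← Int.cast_le (R := ℝ), h3]; push_cast
      linarith [show 0 ≤ 16 * T * (2 ^ Nat.find this * y) by positivity]
    exact ⟨_, by omega, by omega, b0⟩

theorem Ar.crt (ht : PTime t) (a0 : PTime T)
    (h : Ar (fun x : α × ℕ => t x.1 < x.2) Prod.snd fun x => X x.1) : ∃ G : (α × ℕ) × ℕ → ℕ,
    (∀ x, G x ≤ x.2) ∧ (∀ x : (α × ℕ) × ℕ, t x.1.1 < x.2 → x.2.Prime → (G x : ZMod x.2) =
      (2 ^ x.1.2 * X x.1.1 * (∏ r ∈ range (T x.1.1), if (r.Prime ∧ t x.1.1 < r) ∧ r ≠ x.2 then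
        (r : ℤ) else 1) ^ (x.2 - 2) : ℤ)) ∧ Cf fun x : (α × ℕ) × ℕ =>
      if x.2.Prime ∧ t x.1.1 < x.2 then 16 * T x.1.1 * G x / x.2 else 0 := by
  have a1 : Ch fun x : α × ℕ => x.2.Prime ∧ t x.1 < x.2 := (Ch.prime .snd_id).and (.of (by fun_prop))
  have a2 : Ch fun x : ((α × ℕ) × ℕ) × ℕ => (x.2.Prime ∧ t x.1.1.1 < x.2) ∧ x.2 ≠ x.1.2 :=
    (a1.comp (g := fun x : ((α × ℕ) × ℕ) × ℕ => (x.1.1.1, x.2)) (by fun_prop)).and (.of (by fun_prop))
  obtain ⟨-, G, a2, a3, a4⟩ := (((Ar.of .snd_id (.const 2)).pow (N := fun x => x.1.2)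
    (by fun_prop)).mul (h.comp (g := fun x : (α × ℕ) × ℕ => (x.1.1, x.2)) (by fun_prop))).mul
    ((Ar.prod (f := fun x r => if (r.Prime ∧ t x.1.1 < r) ∧ r ≠ x.2 then (r : ℤ) else 1)
      (N := fun x => T x.1.1) (by fun_prop) (.ite a2 (.of (by fun_prop) (by fun_prop))
        (.of (by fun_prop) (by fun_prop)))).pow (N := fun x => x.2 - 2) (by fun_prop))
  exact ⟨G, a3, a4, .ite (a1.comp (g := fun x : (α × ℕ) × ℕ => (x.1.1, x.2)) (by fun_prop))
    (a2.map₂ a2 .snd_id a3 a3 (f := fun x u _ => 16 * T x.1.1 * u / x.2) (by fun_prop))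
    (.of (.const 0))⟩

theorem Cf.scan {Z : α × ℕ → ℕ} (a0 : PTime T) (a6 : Cf Z) (a7 : ∀ x, Z x ≤ T x.1 * (16 * T x.1)) :
    Ch fun a => ∃ s < T a * T a + 1, (2 * T a ≤ Z (a, s) % (16 * T a) ∧
      Z (a, s) % (16 * T a) < 8 * T a) ∧
        ∀ u < s, Z (a, u) % (16 * T a) < 2 * T a ∨ 14 * T a ≤ Z (a, u) % (16 * T a) := by
  have a1 : PTime fun x : α × ℕ => T x.1 * (16 * T x.1) := by fun_prop
  have h : ∀ c, PTime fun x : (α × ℕ) × ℕ => c * T x.1.1 := fun _ => by fun_prop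
  have h' := PTime.snd_id.mod (h 16)
  have a3 := a6.subst a1 a7 (P := fun x v =>
      2 * T x.1 ≤ v % (16 * T x.1) ∧ v % (16 * T x.1) < 8 * T x.1)
      (.and (.of ((h 2).decide_le h')) (.of (h'.decide_lt (h 8))))
  have a4 := a6.subst a1 a7 (P := fun x v => v % (16 * T x.1) < 2 * T x.1 ∨
    14 * T x.1 ≤ v % (16 * T x.1)) (.or (.of (h'.decide_lt (h 2))) (.of ((h 14).decide_le h')))
  exact .ex (by fun_prop) (a3.and (.all .snd_id (a4.comp (g := fun x : (α × ℕ) × ℕ =>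
    (x.1.1, x.2)) (by fun_prop))))

theorem Ar.sign (ht : PTime t) (hE : PTime E) (hX : ∀ a, |X a| ≤ 2 ^ E a)
    (h : Ar (fun x : α × ℕ => t x.1 < x.2) Prod.snd fun x => X x.1) : Ch fun a => 0 < X a := by
  obtain ⟨T, hT⟩ : ∃ T : α → ℕ, T = fun a => (t a + (E a + 2) + 7) ^ 2 + 1 := ⟨_, rfl⟩
  have a0 : PTime T := by rw [hT]; simp only [sq]; fun_prop
  obtain ⟨G, a3, a4, a2⟩ := h.crt ht a0
  have a5 : ∀ (x : α × ℕ) q, (if q.Prime ∧ t x.1 < q then 16 * T x.1 * G (x, q) / q else 0) ≤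
      16 * T x.1 := fun x q => by
    split_ifs
    exacts [Nat.div_le_of_le_mul (mul_comm q _ ▸ Nat.mul_le_mul_left _ (a3 (x, q))), Nat.zero_le _]
  refine ((Cf.sum (N := fun x => T x.1) (by fun_prop) (by fun_prop) a5 a2).scan a0 fun x => by
    simpa using! sum_le_card_nsmul (range (T x.1)) _ _ fun i _ => a5 x i).of_iff fun a => ?_
  obtain ⟨S, hS⟩ : ∃ S, S = (range (T a)).filter fun q => q.Prime ∧ t a < q := ⟨_, rfl⟩
  have b0 : ∀ q ∈ S, q.Prime ∧ t a < q := fun q hq => by simp [hS] at hq; exact hq.2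
  have b4 : ∀ q ∈ S, q < T a := fun q hq => by simp [hS] at hq; exact hq.1
  obtain ⟨M, hM⟩ : ∃ M, M = ∏ q ∈ S, (q : ℝ) := ⟨_, rfl⟩
  have b1 : (2 : ℝ) ^ (E a + 2) ≤ M := hM ▸ (pow_le_pow_right₀ one_le_two (show _ ≤ S.card by
    rw [hS, hT]; exact card_primes _ _)).trans (by
      rw [← prod_const]; gcongr with q hq; exact_mod_cast (b0 q hq).1.two_le)
  have b2 : S.card ≤ T a := hS ▸ (card_filter_le _ _).trans_eq (card_range _)
  have b3 : M ≤ 2 ^ (T a * T a) := by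
    rw [hM, pow_mul, ← Nat.cast_prod]
    exact_mod_cast (prod_le_pow_card _ _ _ fun q hq => ((b4 q hq).trans
      Nat.lt_two_pow_self).le).trans (Nat.pow_le_pow_right (by positivity) b2)
  have b5 : 0 < M := lt_of_lt_of_le (by positivity) b1
  have b6 : (0 : ℝ) < X a / M ↔ 0 < X a := by simp [b5]
  refine (sign_math (y := X a / M) (by rw [hT]; positivity) ?_ (fun h => ?_) fun s => ?_).trans b6
  · have : |(X a : ℝ)| ≤ 2 ^ E a := by exact_mod_cast hX a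
    rw [abs_div, abs_of_pos b5, div_le_iff₀ b5]
    linarith [pow_add (2 : ℝ) (E a) 2]
  · have : (1 : ℝ) ≤ X a := by exact_mod_cast b6.1 h
    rw [← mul_div_assoc, one_le_div b5]
    exact b3.trans (le_mul_of_one_le_right (by positivity) this)
  · obtain ⟨k, e, c1, c2, c3⟩ := crt_floor (fun q hq => (b0 q hq).1) (g := fun q => G ((a, s), q))
      (x := 2 ^ s * X a) (16 * T a) fun q hq => (a4 (_, q) (b0 q hq).2 (b0 q hq).1).trans (by
        simp [hS, ← filter_ne', filter_filter, prod_filter])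
    refine ⟨k, e, c1, c2.trans (by exact_mod_cast b2), ?_⟩
    rw [← sum_filter, ← hS, c3, hM]
    push_cast
    ring

end Vale.Agent.P337
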