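import Vale.Agent.P337.Nm
import Vale.Agent.P337.Sign

/-! Evaluating polynomial families modulo primes. -/

namespace Vale.Agent.P337

open Vale.Agent.PT Finset Classical MvPolynomial

variable {α β : Type} [TEnc α] [TEnc β] {V : α → Prop} {m n e N : α → ℕ}

theorem sum_pow_zmod {p j k : ℕ} (hp : p.Prime) (hj : j + 1 < p) (hk : k + 1 < p) :
    ∑ y ∈ range p, (y : ZMod p) ^ (j + (p - 1 - k)) = if j = k then -1 else 0 := by
  have := Fact.mk hp
  rw [sum_nbij' (t := univ) (g := fun y : ZMod p => y ^ (j + (p - 1 - k))) (↑) ZMod.val (by simp)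
    (by simp [ZMod.val_lt]) (by simp +contextual [Nat.mod_eq_of_lt]) (by simp) (by simp),
    ← sum_erase (a := 0) _ (zero_pow (by omega)), ← sum_nbij' (s := univ)
      (f := fun y : (ZMod p)ˣ => (y : ZMod p) ^ (j + (p - 1 - k))) (↑)
      (fun y => if h : y = 0 then 1 else .mk0 y h) (by simp) (by simp) (by simp)
      (by simp +contextual) (by simp), FiniteField.sum_pow_units, ZMod.card]
  refine if_congr ⟨fun ⟨c, hc⟩ => ?_, fun h => by simp [h, Nat.add_sub_cancel' (show k ≤ p - 1 by omega)]⟩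
    rfl rfl
  rcases c with _ | _ | c
  · omega
  · omega
  · have : (p - 1) * 2 ≤ (p - 1) * (c + 1 + 1) := Nat.mul_le_mul_left _ (by omega)
    omega

theorem sum_dig {M : Type} [AddCommMonoid M] (n p : ℕ) (F : (Fin n → ℕ) → M) :
    ∑ u ∈ range (p ^ n), F (fun i => u / p ^ min (i : ℕ) n % p) = ∑ f : Fin n → Fin p, F fun i => f i := by
  rw [← finFunctionFinEquiv.symm.sum_comp, sum_range]
  simp [finFunctionFinEquiv]

section
variable {σ R : Type} [DecidableEq σ] [CommRing R] (x : σ → R) (i : σ) (q : MvPolynomial σ R)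

/-- The restriction to a coordinate line. -/
noncomputable def lin : MvPolynomial σ R →ₐ[R] Polynomial R :=
  aeval fun j => .C (x j) + if j = i then .X else 0

theorem eval_lin (t : R) : (lin x i q).eval t = eval (fun j => x j + if j = i then t else 0) q := by
  induction q using MvPolynomial.induction_on <;> simp_all [lin, apply_ite (Polynomial.eval _)]

theorem derivative_lin : (lin x i q).derivative = lin x i (pderiv i q) := by
  induction q using MvPolynomial.induction_on <;> simp_all [lin, Pi.single_apply,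
    apply_ite Polynomial.derivative, add_comm, mul_comm, apply_ite (aeval _)]

theorem natDegree_lin : (lin x i q).natDegree ≤ q.totalDegree :=
  (aeval_natDegree_le (n := 1) _ le_rfl _ fun j => by split_ifs <;> compute_degree!).trans_eq (mul_one _)

theorem coeff_lin : (lin x i q).coeff 1 = eval x (pderiv i q) := by
  simpa [Polynomial.coeff_derivative, eval_lin] using
    congr(($(derivative_lin x i q)).coeff 0).trans (Polynomial.coeff_zero_eq_eval_zero _)

end

theorem Ar.coeffU {W : α → Polynomial ℤ} {k : α → ℕ} (hk : PTime k)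
    (h : Ar (fun x : α × ℕ => V x.1) (fun x => m x.1) fun x => (W x.1).eval (x.2 : ℤ))
    (he : ∀ a, V a → (W a).natDegree + 1 < m a ∧ k a + 1 < m a) : Ar V m fun a => (W a).coeff (k a) := by
  have hm : PTime m := h.1.comp (f := fun a => (a, 0)) (by fun_prop)
  refine (Ar.sum (f := fun a y => (W a).eval (y : ℤ) * y ^ (m a - 1 - k a)) hm
    (h.mul (.pow (.of h.1 (by fun_prop)) (by fun_prop)))).neg.congr fun a v p => ?_
  simp only [Polynomial.eval_eq_sum_range, sum_mul, mul_assoc, ← pow_add]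
  push_cast
  rw [sum_comm, sum_congr rfl fun i hi => by
    rw [← mul_sum, sum_pow_zmod p (by have := (he a v).1; simp at hi; omega) (he a v).2]]
  rcases le_or_gt (k a) (W a).natDegree with h | h
  · simp [h]
  · simp [Polynomial.coeff_eq_zero_of_natDegree_lt h]

/-- Polynomial families that can be evaluated. -/
def Pv (V : α → Prop) (m n : α → ℕ) (q : ∀ a, MvPolynomial (Fin (n a)) ℤ) : Prop :=
  ∀ (β : Type) [TEnc β] (g : β → α) (x : β → ℕ → ℤ), PTime g →
    Ar (fun y : β × ℕ => V (g y.1)) (fun y => m (g y.1)) (fun y => x y.1 y.2) →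
    Ar (fun b => V (g b)) (fun b => m (g b)) fun b => eval (fun i : Fin _ => x b i) (q (g b))

variable {p q : ∀ a, MvPolynomial (Fin (n a)) ℤ}

theorem Pv.comp (h : Pv V m n q) {g : β → α} (hg : PTime g) :
    Pv (fun b => V (g b)) (fun b => m (g b)) (fun b => n (g b)) fun b => q (g b) :=
  fun γ _ _ x hg' hx => h γ _ x (hg.comp hg') hx

theorem Pv.C {c : α → ℤ} (h : Ar V m c) : Pv V m n fun a => C (c a) :=
  fun _ _ _ _ hg _ => by simpa using h.comp hg

theorem Pv.add (hp : Pv V m n p) (hq : Pv V m n q) : Pv V m n fun a => p a + q a :=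
  fun β _ g x hg hx => by simpa using (hp β g x hg hx).add (hq β g x hg hx)

theorem Pv.mul (hp : Pv V m n p) (hq : Pv V m n q) : Pv V m n fun a => p a * q a :=
  fun β _ g x hg hx => by simpa using (hp β g x hg hx).mul (hq β g x hg hx)

theorem Pv.neg (hp : Pv V m n p) : Pv V m n fun a => -p a :=
  fun β _ g x hg hx => by simpa using (hp β g x hg hx).neg

theorem Pv.sub (hp : Pv V m n p) (hq : Pv V m n q) : Pv V m n fun a => p a - q a := by
  simpa [sub_eq_add_neg] using hp.add hq.neg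

theorem Pv.pow (hp : Pv V m n p) (hN : PTime N) : Pv V m n fun a => p a ^ N a :=
  fun β _ g x hg hx => by simpa using (hp β g x hg hx).pow (hN.comp hg)

theorem Pv.ite {P : α → Prop} [DecidablePred P] (hP : Ch P) (hp : Pv V m n p) (hq : Pv V m n q) :
    Pv V m n fun a => if P a then p a else q a := fun β _ g x hg hx => by
  simpa [apply_ite (eval _)] using (hp β g x hg hx).ite (hP.comp hg) (hq β g x hg hx)

theorem Pv.sum {f : ∀ a, ℕ → MvPolynomial (Fin (n a)) ℤ} (hN : PTime N)
    (h : Pv (fun x : α × ℕ => V x.1) (fun x => m x.1) (fun x => n x.1) fun x => f x.1 x.2) :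
    Pv V m n fun a => ∑ i ∈ range (N a), f a i := fun β _ g x hg hx => by
  simp only [map_sum]
  exact .sum (hN.comp hg) (h (β × ℕ) (fun y => (g y.1, y.2)) (fun y => x y.1) (by fun_prop)
      (hx.comp (g := fun y : (β × ℕ) × ℕ => (y.1.1, y.2)) (by fun_prop)))

theorem Pv.prod {f : ∀ a, ℕ → MvPolynomial (Fin (n a)) ℤ} (hN : PTime N)
    (h : Pv (fun x : α × ℕ => V x.1) (fun x => m x.1) (fun x => n x.1) fun x => f x.1 x.2) :
    Pv V m n fun a => ∏ i ∈ range (N a), f a i := fun β _ g x hg hx => by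
  simp only [map_prod]
  exact .prod (hN.comp hg) (h (β × ℕ) (fun y => (g y.1, y.2)) (fun y => x y.1) (by fun_prop)
      (hx.comp (g := fun y : (β × ℕ) × ℕ => (y.1.1, y.2)) (by fun_prop)))

theorem Pv.coeff {γ : α → ℕ → ℕ} (hm : PTime m) (hn : PTime n) (hn' : PB n) (h : Pv V m n q)
    (hγ : PTime fun x : α × ℕ => γ x.1 x.2)
    (he : ∀ a, V a → (q a).totalDegree + 1 < m a ∧ ∀ i, γ a i + 1 < m a) :
    Ar V m fun a => coeff (Finsupp.equivFunOnFinite.symm fun i : Fin (n a) => γ a i) (q a) := by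
  have h0 : PTime fun x : (α × ℕ) × ℕ => ((x.1.2 / m x.1.1 ^ min x.2 (n x.1.1) % m x.1.1 : ℕ) : ℤ) :=
    (((PTime.snd .fst_id).div (.pow (by fun_prop) (by fun_prop) ((hn'.comp (by fun_prop)).of_le
      fun _ => min_le_right _ _))).mod (by fun_prop)).natCast_int
  refine ((Ar.pow (.of hm (.const (-1))) hn).mul (Ar.sum (f := fun a u =>
    eval (fun i : Fin _ => ((u / m a ^ min (i : ℕ) (n a) % m a : ℕ) : ℤ)) (q a) *
      ∏ i ∈ range (n a), ((u / m a ^ min i (n a) % m a : ℕ) : ℤ) ^ (m a - 1 - γ a i)) (hm.pow hn hn')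
    (.mul (h _ Prod.fst (fun x i => (x.2 / m x.1 ^ min i (n x.1) % m x.1 : ℕ)) .fst_id
      (.of (by fun_prop) h0)) (.prod (hn.comp .fst_id) (.pow (.of (by fun_prop) h0)
        ((by fun_prop : PTime fun x : (α × ℕ) × ℕ => m x.1.1 - 1).sub
          (hγ.comp (f := fun x : (α × ℕ) × ℕ => (x.1.1, x.2)) (by fun_prop)))))))).congr fun a v p => ?_
  simp only [prod_range]
  rw [sum_dig (n a) (m a) fun f => eval (fun i => (f i : ℤ)) (q a) * ∏ i, (f i : ℤ) ^ (m a - 1 - γ a i)]
  simp only [eval_eq', sum_mul, mul_assoc, ← prod_mul_distrib, ← pow_add]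
  push_cast
  rw [sum_comm, sum_congr rfl fun s hs => by
    rw [← mul_sum, ← Fintype.piFinset_univ, ← prod_univ_sum (fun _ => univ)
      fun i (y : Fin (m a)) => (y : ZMod (m a)) ^ (s i + (m a - 1 - γ a i)), prod_congr rfl fun i _ => by
        rw [← sum_range fun y : ℕ => (y : ZMod (m a)) ^ (s i + (m a - 1 - γ a i)), sum_pow_zmod p
          ((Nat.succ_le_succ ((monomial_le_degreeOf i hs).trans (degreeOf_le_totalDegree _ _))).trans_lt
            (he a v).1) ((he a v).2 i)], prod_ite_zero]]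
  rw [sum_eq_single (Finsupp.equivFunOnFinite.symm fun i : Fin (n a) => γ a i) (fun s _ hs => by
    rw [if_neg fun h => hs (by ext i; exact h i (mem_univ _)), mul_zero]) (by simp +contextual)]
  simp [mul_left_comm ((-1 : ZMod (m a)) ^ n a), ← mul_pow]

variable [∀ a, NeZero (n a)]

theorem Pv.X {i : α → ℕ} (hn : PTime n) (hi : PTime i) : Pv V m n fun a => X (.ofNat _ (i a)) :=
  fun β _ g x hg hx => by simpa using hx.comp (g := fun b => (b, i (g b) % n (g b))) (by fun_prop)

theorem Pv.sumF {f : ∀ a, Fin (n a) → MvPolynomial (Fin (n a)) ℤ} (hn : PTime n)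
    (h : Pv (fun x : α × ℕ => V x.1) (fun x => m x.1) (fun x => n x.1) fun x => f x.1 (.ofNat _ x.2)) :
    Pv V m n fun a => ∑ i, f a i := by
  simpa [sum_range] using Pv.sum (f := fun a i => f a (.ofNat _ i)) hn h

theorem Pv.prodF {f : ∀ a, Fin (n a) → MvPolynomial (Fin (n a)) ℤ} (hn : PTime n)
    (h : Pv (fun x : α × ℕ => V x.1) (fun x => m x.1) (fun x => n x.1) fun x => f x.1 (.ofNat _ x.2)) :
    Pv V m n fun a => ∏ i, f a i := by
  simpa [prod_range] using Pv.prod (f := fun a i => f a (.ofNat _ i)) hn h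

theorem Pv.pderiv {i : α → ℕ} (hn : PTime n) (hi : PTime i) (h : Pv V m n q)
    (he : ∀ a, V a → (q a).totalDegree + 1 < m a ∧ 2 < m a) :
    Pv V m n fun a => pderiv (.ofNat _ (i a)) (q a) := fun β _ g x hg hx => by
  have h0 := h (β × ℕ) (fun y => g y.1) (fun y j => x y.1 j +
    if j = i (g y.1) % n (g y.1) then (y.2 : ℤ) else 0)
    (by fun_prop) ((hx.comp (g := fun y : (β × ℕ) × ℕ => (y.1.1, y.2)) (by fun_prop)).add
      (.of (hx.1.comp (f := fun y : (β × ℕ) × ℕ => y.1) (by fun_prop)) (by fun_prop)))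
  simpa [coeff_lin] using Ar.coeffU (W := fun b => lin (fun j : Fin _ => x b j)
    (.ofNat _ (i (g b))) (q (g b))) (.const 1) (by simpa [eval_lin, Fin.ext_iff] using h0) fun b v =>
      ⟨(Nat.succ_le_succ (natDegree_lin ..)).trans_lt (he _ v).1, (he _ v).2⟩

theorem det_eq {R : Type} [CommRing R] {n : ℕ} [NeZero n] (M : Matrix (Fin n) (Fin n) R) :
    M.det = ∑ u ∈ range (n ^ n), (∏ j ∈ range n, ∏ i ∈ range j,
      if u / n ^ min i n % n < u / n ^ min j n % n then 1 else if u / n ^ min i n % n =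
        u / n ^ min j n % n then 0 else -1) *
      ∏ i ∈ range n, M (.ofNat _ (u / n ^ min i n % n)) (.ofNat _ i) := by
  refine Eq.trans ?_ ((sum_dig n n fun f => (∏ j, ∏ i ∈ Iio j, if f i < f j then 1 else
    if f i = f j then 0 else -1) * ∏ i, M (.ofNat _ (f i)) i).symm.trans (sum_congr rfl fun u _ => ?_))
  · rw [Matrix.det_apply']
    refine sum_of_injOn (↑) (DFunLike.coe_injective.injOn) (by simp) (fun f _ hf => ?_) fun π _ => ?_
    · obtain ⟨i, j, h1, h2⟩ : ∃ i j, i < j ∧ f i = f j := by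
        by_contra! h
        exact hf ⟨.ofBijective f (Finite.injective_iff_bijective.1 (Function.Injective.of_lt_imp_ne h)), by simp, rfl⟩
      rw [prod_eq_zero (mem_univ j) (prod_eq_zero (mem_Iio.2 h1) (by simp [h2])), zero_mul]
    · rw [π.sign_eq_prod_prod_Iio]
      push_cast
      congr 1
      · refine prod_congr rfl fun j _ => prod_congr rfl fun i hi => ?_
        have := (mem_Iio.1 hi).ne
        by_cases h : π i < π j <;> simp [*, Fin.val_inj]
      · simp
  · simp only [prod_range (n := n)]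
    congr 1
    · refine prod_congr rfl fun j _ => ?_
      rw [← Nat.Iio_eq_range, ← Fin.map_valEmbedding_Iio, prod_map]; rfl
    · simp

theorem Pv.det {M : ∀ a, Matrix (Fin (n a)) (Fin (n a)) (MvPolynomial (Fin (n a)) ℤ)} (hm : PTime m)
    (hn : PTime n) (hn' : PB n) (h : Pv (fun x : (α × ℕ) × ℕ => V x.1.1) (fun x => m x.1.1)
      (fun x => n x.1.1) fun x => M x.1.1 (.ofNat _ x.1.2) (.ofNat _ x.2)) :
    Pv V m n fun a => (M a).det := by
  have h0 : PTime fun x : (α × ℕ) × ℕ => x.1.2 / n x.1.1 ^ min x.2 (n x.1.1) % n x.1.1 :=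
    ((PTime.snd .fst_id).div (.pow (by fun_prop) (by fun_prop) ((hn'.comp (by fun_prop)).of_le
      fun _ => min_le_right _ _))).mod (by fun_prop)
  have h1 := h0.comp (f := fun x : ((α × ℕ) × ℕ) × ℕ => (x.1.1, x.2)) (by fun_prop)
  have h2 := h0.comp (f := fun x : ((α × ℕ) × ℕ) × ℕ => x.1) (by fun_prop)
  have h3 : ∀ c : ℤ, Pv (fun x : ((α × ℕ) × ℕ) × ℕ => V x.1.1.1) (fun x => m x.1.1.1)
    (fun x => n x.1.1.1) fun _ => MvPolynomial.C c := fun c => .C (.of (by fun_prop) (.const c))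
  simp only [det_eq]
  exact .sum (hn.pow hn hn') (.mul (.prod (hn.comp .fst_id) (.prod .snd_id (.ite (.of (h1.decide_lt h2))
    (h3 1) (.ite (.of (h1.decide_eq h2)) (by simpa using h3 0) (h3 1).neg)))) (.prod (hn.comp .fst_id)
      (h.comp (g := fun x : (α × ℕ) × ℕ => ((x.1.1, _), x.2))
        (((PTime.fst .fst_id).prodMk h0).prodMk .snd_id))))

theorem Ar.cc {k : α → ℕ} (hm : PTime m) (hN : PTime N) (hk : PTime k) :
    Ar V m fun a => cc (N a) (k a) := by
  simp only [P337.cc, Nat.cast_prod]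
  exact .prod hN (.of (by fun_prop) (by fun_prop))

theorem Ar.ee {k : α → ℕ} (hm : PTime m) (hN : PTime N) (hk : PTime k) :
    Ar V m fun a => ee (N a) (k a) := by
  simp only [P337.ee, Nat.cast_prod, Nat.cast_ite, Nat.cast_mul]
  exact .prod hN (.ite (.of (by fun_prop)) (.of (by fun_prop) (by fun_prop))
    (.mul (.of (by fun_prop) (by fun_prop)) (.prod (by fun_prop) (.of (by fun_prop) (by fun_prop)))))

theorem Ar.nw {t : α → ℕ → ℤ} (hN : PTime N)
    (h : Ar (fun x : α × ℕ => V x.1) (fun x => m x.1) fun x => t x.1 x.2)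
    (hV : ∀ a, V a → N a * N a + N a + 1 < m a) : Ar V m fun a => nw (N a) (t a) := by
  have hm : PTime m := h.1.comp (f := fun a => (a, 0)) (by fun_prop)
  refine (Ar.sum (N := fun a => N a + 1) (f := fun a k => (nwP (N a) (t a)).coeff (min k (N a)))
    (by fun_prop) (.coeffU (by fun_prop) ?_ fun a v => ?_)).congr fun a _ _ => congrArg _
      (sum_congr rfl fun k hk => by rw [min_eq_left (Nat.le_of_lt_succ (mem_range.1 hk))])
  · simp only [nwP, Polynomial.eval_finsetSum, Polynomial.eval_mul, Polynomial.eval_pow,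
      Polynomial.eval_neg, Polynomial.eval_C, Polynomial.eval_X, Polynomial.eval_natCast]
    exact .sum (by fun_prop) (.mul (.ee (by fun_prop) (by fun_prop) .snd_id) (.pow (.neg (.sum (by fun_prop)
      (.mul (.mul (.cc (by fun_prop) (by fun_prop) .snd_id)
      (h.comp (g := fun x : (((α × ℕ) × ℕ) × ℕ) × ℕ => (x.1.1.1.1, x.2 + 1)) (by fun_prop)))
      (.pow (.of (by fun_prop) (by fun_prop)) (by fun_prop))))) .snd_id))
  · have := natDegree_nwP (N a.1) (t a.1)
    have := hV _ v
    omega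

variable {d : ∀ a, Fin (n a) → ℕ} {h : ∀ a, Fin (n a) → MvPolynomial (Fin (n a)) ℤ} {K D : α → ℕ}
  (hm : PTime m) (hn : PTime n) (hn' : PB n) (hd : PTime fun x : α × ℕ => d x.1 (.ofNat _ x.2))
  (hh : Pv (fun x : α × ℕ => V x.1) (fun x => m x.1) (fun x => n x.1) fun x => h x.1 (.ofNat _ x.2))
  (H : ∀ a, Ph (d a) (h a)) (hD : ∀ a i, d a i ≤ D a)
include hn hd in
theorem Pv.Xd : Pv (fun x : α × ℕ => V x.1) (fun x => m x.1) (fun x => n x.1) fun x =>
    MvPolynomial.X (.ofNat _ x.2) ^ d x.1 (.ofNat _ x.2) := .pow (.X (hn.comp .fst_id) .snd_id) hd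

include hm hn hn' hd hh H hD

theorem Pv.jac (hV : ∀ a, V a → D a + 2 < m a) : Pv V m n fun a => Jac (d a) (h a) :=
  .det hm hn hn' (.pderiv (by fun_prop) .snd_id
    (((Pv.Xd hn hd).sub hh).comp .fst_id) fun x v => by
      have := le_iff.1 ((((Le.X (R := ℤ) (.ofNat _ x.1.2)).pow (d x.1.1 (.ofNat _ x.1.2))).mono
        (mul_one _).le).sub ((H x.1.1 (.ofNat _ x.1.2)).2.mono (by omega)))
      have := hD x.1.1 (.ofNat _ x.1.2)
      have := hV _ v
      omega)

theorem Ar.tau (hK : PTime K) (hq : Pv V m n q) (he : ∀ a, Le (∑ i, (d a i - 1 : ℤ) + K a) (q a))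
    (hV : ∀ a, V a → (n a + 1) * (D a * (K a + 1)) + K a + 1 < m a) :
    Ar V m fun a => tau (d a) (h a) (K a) (q a) := by
  have h3 : Pv V m n fun a => ∏ i, Gi (d a) (h a) (K a) i := .prodF hn (.sum (by fun_prop)
    (.mul (.pow ((Pv.Xd hn hd).comp .fst_id) .snd_id)
      (.pow (hh.comp .fst_id) (by fun_prop))))
  refine (hq.mul h3).coeff (γ := fun a i => d a (.ofNat _ i) * (K a + 1) - 1) hm hn hn'
    ((hd.mul (by fun_prop)).sub (.const 1)) (fun a v => ⟨?_, fun i => ?_⟩) |>.congr
      fun x _ _ => by simp [P337.tau, gam]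
  · refine (Nat.succ_le_succ (le_iff.1 ((he a).mul (Le.prod fun i _ => (H _).Gi _ i) |>.mono
      (b := (K a + n a * (D a * (K a + 1)) : ℕ)) ?_))).trans_lt (by have := hV _ v; nlinarith)
    have h4 := sum_le_card_nsmul univ (fun i => (d a i - 1 : ℤ) + d a i * K a) (D a * (K a + 1))
      fun i _ => by nlinarith [hD a i]
    rw [sum_add_distrib] at h4
    simp at h4 ⊢
    omega
  · have := Nat.mul_le_mul_right (K a + 1) (hD a (.ofNat _ i))
    have := hV _ v
    rw [add_mul] at this
    omega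

theorem Ar.nm (hN : PTime N) (hK : PTime K) (hq : Pv V m n q)
    (he : ∀ a, Le (e a) (q a) ∧ N a * e a ≤ K a)
    (hV : ∀ a, V a → (n a + 1) * (D a * (K a + 1)) + K a + N a * N a + N a + D a + 2 < m a) :
    Ar V m fun a => Nm (N a) (K a) (d a) (h a) (q a) := by
  have h2 := Pv.jac hm hn hn' hd hh H hD fun a v => by have := hV a v; omega
  refine (Ar.nw (t := fun a k => P337.tau (d a) (h a) (K a) ((1 - q a) ^ min k (N a) * Jac (d a) (h a))) hN
    (.tau (D := fun x => D x.1) (by fun_prop) (by fun_prop) (hn'.comp .fst_id) (hd.comp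
      (f := fun x : (α × ℕ) × ℕ => (x.1.1, x.2)) (by fun_prop)) (hh.comp
      (g := fun x : (α × ℕ) × ℕ => (x.1.1, x.2)) (by fun_prop)) (fun _ => H _) (fun _ => hD _) (by fun_prop)
      (((((Pv.C (.of hm (.const 1))).sub hq).comp .fst_id).pow (by fun_prop)).mul (h2.comp .fst_id))
      (fun x => ?_) fun x v => by have := hV _ v; omega)
    fun a v => by have := hV a v; omega).congr fun a _ _ => ?_
  · refine (((((Le.C 1).mono (by omega)).sub (he x.1).1).pow _).mul (H _).jac.1).mono ?_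
    have := (Nat.mul_le_mul_right (e x.1) (min_le_right x.2 _)).trans (he x.1).2
    rw [add_comm]
    exact add_le_add_right (by exact_mod_cast this) _
  · rw [Nm, P337.nw, P337.nw, nwP, nwP]
    congr! 9 with k _ j _ i hi
    rw [min_eq_left (mem_range.1 hi)]

end Vale.Agent.P337
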