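import Vale.Agent.P337.Red

/-! Real feasibility is in the counting hierarchy. -/

namespace Vale.Agent.P337

open Vale.Agent.PT Finset Classical MvPolynomial

/-- The degrees of the final system. -/
def dd (n δ : ℕ) (i : Fin (n + 2)) : ℕ :=
  if (i : ℕ) = 0 then 2 else if (i : ℕ) = 1 then 2 * δ + 4 else 2 * δ + 1

/-- The right hand sides of the final system. -/
noncomputable def hh {n : ℕ} (δ : ℕ) (f : MvPolynomial (Fin n) ℤ) (B l : ℤ) (i : Fin (n + 2)) :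
    MvPolynomial (Fin (n + 2)) ℤ :=
  if (i : ℕ) = 0 then -1 else if (i : ℕ) = 1 then C B - rename (·.succ.succ) (gP δ f l) else
    -C l * pderiv i (rename (·.succ.succ) f)

section
variable {n δ H B l : ℕ} {f : MvPolynomial (Fin n) ℤ}

theorem Le.rename {σ τ R : Type} [CommRing R] {q : MvPolynomial σ R} {e : ℕ} (h : Le e q) (g : σ → τ) :
    Le e (rename g q) := le_iff.2 ((totalDegree_rename_le _ _).trans (le_iff.1 h))

theorem ph_hh (hf : Le (2 * δ) f) (B l : ℤ) : Ph (dd n δ) (hh δ f B l) := fun i => by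
  unfold dd hh
  split_ifs
  · exact ⟨by omega, ((Le.C 1).mono (by simp)).neg⟩
  · exact ⟨by omega, ((Le.C _).mono (by omega)).sub (((hf.gP _).rename _).mono (by omega))⟩
  · exact ⟨by omega, ((Le.C _).neg.mul ((Le.rename (e := 2 * δ) hf _).pderiv _)).mono (by omega)⟩

theorem sol_hh (x : Fin (n + 2) → ℂ) : (∀ i, x i ^ dd n δ i = aeval x (hh δ f B l i)) ↔ x 0 ^ 2 = -1 ∧
    x 1 ^ (2 * δ + 4) = B - eval (fun j : Fin n => x j.succ.succ) (gP δ f (l : ℂ)) ∧ ∀ j : Fin n,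
      x j.succ.succ ^ (2 * δ + 1) = -l * aeval (fun j : Fin n => x j.succ.succ) (pderiv j f) := by
  have : ∀ j : Fin n, pderiv j.succ.succ (rename (·.succ.succ) f) = rename (·.succ.succ) (pderiv j f) :=
    fun j => pderiv_rename ((Fin.succ_injective _).comp (Fin.succ_injective _)) j f
  simp [Fin.forall_fin_succ, dd, hh, this, Function.comp_def, gP, eval_map, aeval_def, map_ofNat,
    eval₂_rename, ← RingHom.eq_intCast' (.id ℤ), MvPolynomial.map_id]

theorem big : (∃ x : Fin (n + 2) → ℂ, (∀ i, x i ^ dd n δ i = aeval x (hh δ f B l i)) ∧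
    ∀ i ≠ 0, (x i).im = 0) ↔ ∃ x : Fin n → ℝ,
      (∀ j, x j ^ (2 * δ + 1) = -l * aeval x (pderiv j f)) ∧ eval x (gP δ f (l : ℝ)) ≤ B := by
  have h0 : ∀ x : Fin n → ℝ, eval (fun j => (x j : ℂ)) (gP δ f (l : ℂ)) = eval x (gP δ f (l : ℝ)) :=
    fun x => by simp [eval_gP, aeval_re]
  simp only [sol_hh]
  constructor
  · rintro ⟨x, ⟨-, h1, h2⟩, h3⟩
    choose y hy using fun i : Fin (n + 1) => show ∃ r : ℝ, x i.succ = r from
      ⟨_, (Complex.conj_eq_iff_re.1 (Complex.conj_eq_iff_im.2 (h3 _ i.succ_ne_zero))).symm⟩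
    simp only [hy, ← Fin.succ_zero_eq_one, h0, aeval_re] at h1 h2
    norm_cast at h1
    exact ⟨fun j => y j.succ, by exact_mod_cast h2, sub_nonneg.1 (h1 ▸ Even.pow_nonneg ⟨δ + 2, by ring⟩ _)⟩
  · rintro ⟨x, h1, h2⟩
    refine ⟨Fin.cons .I (Fin.cons (((B - eval x (gP δ f (l : ℝ))) ^ ((2 * δ + 4 : ℕ) : ℝ)⁻¹ : ℝ) : ℂ)
      fun j => x j), ⟨by simp, ?_, fun j => ?_⟩, by simp [Fin.forall_fin_succ]⟩
    · simp only [← Fin.succ_zero_eq_one, Fin.cons_succ, Fin.cons_zero, h0]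
      exact_mod_cast Real.rpow_inv_natCast_pow (sub_nonneg.2 h2) (by omega)
    · simp only [Fin.cons_succ, aeval_re]
      exact_mod_cast h1 j

theorem bound_hh (hf : Le (2 * δ) f) (hH : 1 ≤ H)
    (hb : ∀ (x : Fin n → ℂ) (r : ℝ), 1 ≤ r → (∀ i, ‖x i‖ ≤ r) → ‖aeval x f‖ ≤ H * r ^ (2 * δ))
    {x : Fin (n + 2) → ℂ} (h : ∀ i, x i ^ dd n δ i = aeval x (hh δ f B l i)) :
    x 0 ^ 2 = -1 ∧ ∀ i, ‖x i‖ ≤ (rho δ H l + (B + GG n δ H l) + 1 : ℕ) := by
  obtain ⟨h1, h2, h3⟩ := (sol_hh x).1 h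
  obtain ⟨h4, h5⟩ := sol_bound (l := l) hf hH hb (by simp) h3
  have h6 : ∀ {z : ℂ} {k c : ℕ}, k ≠ 0 → ‖z ^ k‖ ≤ c → ‖z‖ ≤ c + 1 := fun {z k c} hk h => by
    rcases le_total ‖z‖ 1 with h' | h'
    · linarith [c.cast_nonneg (α := ℝ)]
    · linarith [le_self_pow₀ h' hk, norm_pow z k]
  have h7 := h6 (z := x 1) (k := 2 * δ + 4) (c := B + GG n δ H l) (by omega) (by
    rw [Fintype.card_fin] at h5
    grw [h2, norm_sub_le]; simp; linarith)
  have h8 := (B + GG n δ H l).cast_nonneg (α := ℝ)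
  have h9 := (rho δ H l).cast_nonneg (α := ℝ)
  refine ⟨h1, Fin.forall_fin_succ.2 ⟨?_, Fin.forall_fin_succ.2 ⟨?_, fun j => ?_⟩⟩⟩ <;>
    rw [Nat.cast_add_one, Nat.cast_add]
  · have : ‖x 0‖ = 1 := (pow_eq_one_iff_of_nonneg (norm_nonneg _) two_ne_zero).1 (by simp [← norm_pow, h1])
    linarith
  · exact h7.trans (by linarith)
  · linarith [h4 j]

end

variable {α : Type} [TEnc α] {V : α → Prop} {m n t δ H l : α → ℕ} {f : ∀ a, MvPolynomial (Fin (n a)) ℤ}

theorem Pv.rename (h : Pv V m n f) :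
    Pv V m (fun a => n a + 2) fun a => rename (·.succ.succ) (f a) := fun β _ g x hg hx => by
  simpa [eval_rename, Function.comp_def] using h β g (fun b i => x b (i + 1 + 1)) hg
    (hx.comp (g := fun y : β × ℕ => (y.1, y.2 + 1 + 1)) (by fun_prop))

theorem Db.rho (hδ : PTime δ) (hH : Db H) (hl : Db l) : Db fun a => rho (δ a) (H a) (l a) :=
  have := (PTime.const 2).mul hδ
  (Db.of (.const 1)).add (hl.mul ((Db.of this).mul (hH.mul ((Db.of (.const 2)).pow this))))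

theorem Db.GG (hn : PTime n) (hδ : PTime δ) (hH : Db H) (hl : Db l) :
    Db fun a => GG (n a) (δ a) (H a) (l a) :=
  have := (PTime.const 2).mul hδ
  have h := this.add (.const 2)
  (((Db.of hn).mul ((Db.rho hδ hH hl).pow h)).add (((Db.of h).mul hl).mul
    (hH.mul ((Db.rho hδ hH hl).pow this)))).add (.of (.const 1))

attribute [local irreducible] PTime PB Ar Ch Pv ee rho GG

theorem Pz.hh [∀ a, NeZero (n a)] {B L : α → ℕ} (hn : PTime n) (hδ : PTime δ) (hB : PTime B) (hL : PTime L)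
    (hf : ∀ a, Le (2 * δ a) (f a)) (h : Pz t n fun a _ => f a) : Pz (fun a => t a + (2 * δ a + 2))
    (fun a => n a + 2) fun a i => hh (δ a) (f a) (2 ^ B a : ℕ) (2 ^ L a : ℕ) (.ofNat _ i) := by
  intro β _ g V m hg hm hV
  have a0 := h β g V m hg hm fun b v => (Nat.le_add_right _ _).trans_lt (hV b v)
  have g1 : PTime fun x : β × ℕ => g x.1 := hg.comp .fst_id
  have g2 : PTime fun x : β × ℕ => m x.1 := hm.comp .fst_id
  have g3 := (hn.comp g1).add (.const 2)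
  have g4 := ((PTime.const 2).mul (hδ.comp g1)).add (.const 2)
  have g5 : ∀ {E : α → ℕ}, PTime E → Ar (fun x : β × ℕ => V x.1) (fun x => m x.1) fun x =>
    ((2 ^ E (g x.1) : ℕ) : ℤ) := fun h => by simpa using (Ar.of g2 (.const 2)).pow (h.comp g1)
  have a1 : Pv (fun x : β × ℕ => V x.1) (fun x => m x.1) (fun x => n (g x.1)) fun x =>
      gP (δ (g x.1)) (f (g x.1)) ((2 ^ L (g x.1) : ℕ) : ℤ) := by
    simp only [gP, ← RingHom.eq_intCast' (.id ℤ), MvPolynomial.map_id]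
    exact .add (.sumF (hn.comp g1) (.pow (.X (hn.comp (g1.comp .fst_id)) .snd_id) (g4.comp .fst_id)))
      (.mul (.C (.mul (by simpa using Ar.of g2 g4.natCast_int) (g5 hL))) a0)
  unfold P337.hh
  exact .ite (.of ((PTime.snd_id.mod g3).decide_eq (.const 0))) (.neg (Pv.C (.of g2 (.const 1))))
    (.ite (.of ((PTime.snd_id.mod g3).decide_eq (.const 1))) (.sub (.C (g5 hB)) a1.rename)
      (.mul (.neg (.C (g5 hL))) (.pderiv g3 .snd_id a0.rename fun x v => by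
        have := le_iff.1 (Le.rename (e := 2 * δ (g x.1)) (hf _) fun i : Fin _ => i.succ.succ)
        have := hV _ v
        dsimp only at this
        omega)))

theorem Ch.feas [∀ a, NeZero (n a)] (hn : PTime n) (hn' : PB n) (hδ : PTime δ) (ht : PTime t) (hH : Db H)
    (h : Pz t n fun a _ => f a) (hf : ∀ a, Le (2 * δ a) (f a)) (h1 : ∀ a, 1 ≤ H a)
    (hb : ∀ a (x : Fin (n a) → ℂ) (r : ℝ), 1 ≤ r → (∀ i, ‖x i‖ ≤ r) →
      ‖aeval x (f a)‖ ≤ H a * r ^ (2 * δ a)) (h0 : ∀ a (x : Fin (n a) → ℝ), 0 ≤ aeval x (f a)) :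
    Ch fun a => ∃ x : Fin (n a) → ℝ, aeval x (f a) = 0 := by
  have g0 := (PTime.const 2).mul hδ
  have g1 := (g0.add (.const 1)).pow hn hn'
  have g2 := Db.GG hn hδ hH (.of (.const 1))
  have g3 := hn.add (.const 2)
  have g4 := hn'.add (.const 2)
  have g5 := g0.add (.const 4)
  have d1 := Db.of (α := α) (.const 1)
  have d2 := Db.of (α := α) (.const 2)
  obtain ⟨B, hB, hB'⟩ := ((Db.ee g1).mul ((d1.add g2).pow g1)).add d1
  obtain ⟨L, hL, hL'⟩ := ((Db.ee g1).mul (((d2.mul (d2.pow hB)).add g2).pow g1)).add d1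
  have g6 := PTime.snd_id.mod (g3.comp (.fst_id (β := ℕ)))
  have g7 : ∀ a i, dd (n a) (δ a) i ≤ 2 * δ a + 4 := fun a i => by unfold dd; split_ifs <;> omega
  exact (Ch.real (d := fun a => dd (n a) (δ a)) (h := fun a => hh (δ a) (f a) (2 ^ B a : ℕ) (2 ^ L a : ℕ))
    g3 g4 (.ite (g6.decide_eq (.const 0)) (.const 2) (.ite (g6.decide_eq (.const 1)) (g5.comp .fst_id)
      ((g0.add (.const 1)).comp .fst_id))) (fun a => ph_hh (hf a) _ _) g7 (g5.pow g3 g4)
    (fun a => (prod_le_pow_card _ _ _ fun i _ => g7 a i).trans_eq (by simp)) g5 (ht.add (g0.add (.const 2)))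
    (.hh hn hδ hB hL hf h) (((Db.rho hδ hH (d2.pow hL)).add ((d2.pow hB).add
      (.GG hn hδ hH (d2.pow hL)))).add d1) fun a x hx => bound_hh (hf a) (h1 a) (hb a) hx).of_iff
    fun a => big.trans (red (hf a) (h1 a) (hb a) (h0 a) (Fintype.card_fin _ ▸ le_rfl)
      (Fintype.card_fin _ ▸ rfl) (hB' a) (hL' a)).symm

end Vale.Agent.P337
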