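import Mathlib

/-! Degree bookkeeping and the residue functional. -/

namespace Vale.Agent.P337

open MvPolynomial Finset

set_option linter.unusedSectionVars false

variable {σ R R' ι : Type} [CommRing R] [CommRing R'] {p q : MvPolynomial σ R} {a b e : ℤ}

/-- All monomials have degree at most `e`. -/
def Le (e : ℤ) (q : MvPolynomial σ R) : Prop := ∀ m : σ →₀ ℕ, e < m.degree → coeff m q = 0

theorem Le.mono (h : Le a q) (h' : a ≤ b) : Le b q := fun m hm => h m (h'.trans_lt hm)

theorem Le.zero : Le e (0 : MvPolynomial σ R) := fun _ _ => rfl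

theorem Le.add (h : Le e p) (h' : Le e q) : Le e (p + q) := fun m hm => by simp [h m hm, h' m hm]

theorem Le.neg (h : Le e p) : Le e (-p) := fun m hm => by simp [h m hm]

theorem Le.sub (h : Le e p) (h' : Le e q) : Le e (p - q) := fun m hm => by simp [h m hm, h' m hm]

theorem Le.mul (h : Le a p) (h' : Le b q) : Le (a + b) (p * q) := fun m hm => by
  classical
  rw [coeff_mul]
  refine sum_eq_zero fun x hx => ?_
  rw [← mem_antidiagonal.1 hx, map_add, Nat.cast_add] at hm
  rcases lt_or_ge a x.1.degree with h1 | h1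
  · simp [h _ h1]
  · simp [h' _ (show b < x.2.degree by omega)]

theorem Le.monomial (m : σ →₀ ℕ) (c : R) : Le m.degree (monomial m c) := fun m' hm => by
  classical
  rw [coeff_monomial, if_neg]; rintro rfl; simp at hm

theorem Le.C (c : R) : Le 0 (C c : MvPolynomial σ R) := by simpa using! Le.monomial (0 : σ →₀ ℕ) c

theorem Le.X (i : σ) : Le 1 (X i : MvPolynomial σ R) := by
  simpa using! Le.monomial (Finsupp.single i 1) (1 : R)

theorem Le.sum {s : Finset ι} {f : ι → MvPolynomial σ R} (h : ∀ i ∈ s, Le e (f i)) :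
    Le e (∑ i ∈ s, f i) := fun m hm => by rw [coeff_sum]; exact sum_eq_zero fun i hi => h i hi m hm

theorem Le.prod {s : Finset ι} {f : ι → MvPolynomial σ R} {e : ι → ℤ} (h : ∀ i ∈ s, Le (e i) (f i)) :
    Le (∑ i ∈ s, e i) (∏ i ∈ s, f i) := by
  induction s using Finset.cons_induction with
  | empty => exact Le.C 1
  | cons i s hi ih =>
    rw [sum_cons, prod_cons]
    exact (h i (by simp)).mul (ih fun j hj => h j (by simp [hj]))

theorem Le.pow (h : Le e q) (k : ℕ) : Le (k * e) (q ^ k) := by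
  simpa using Le.prod (s := range k) fun _ _ => h

theorem Le.map (h : Le e q) (φ : R →+* R') : Le e (map φ q) := fun m hm => by
  simp [coeff_map, h m hm]

theorem Le.of_map {φ : R →+* R'} (h : Le e (MvPolynomial.map φ q)) (hφ : Function.Injective φ) :
    Le e q := fun m hm => hφ (by simpa [coeff_map] using h m hm)

theorem Le.pderiv (h : Le e q) (i : σ) : Le (e - 1) (pderiv i q) := fun m hm => by
  rw [coeff_pderiv, h _ (by simp; omega), zero_mul]

theorem le_iff {k : ℕ} : Le k q ↔ q.totalDegree ≤ k :=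
  ⟨fun h => Finset.sup_le fun m hm => not_lt.1 fun h' => mem_support_iff.1 hm (h m (by
    exact_mod_cast h')), fun h m hm => coeff_eq_zero_of_totalDegree_lt (h.trans_lt (by
    exact_mod_cast hm))⟩

theorem Le.lead {s : Finset ι} {u v : ι → MvPolynomial σ R} {e : ι → ℤ} {k : ℤ} (hk : 0 ≤ k)
    (h : ∀ i ∈ s, Le (e i) (u i) ∧ Le (e i - k) (v i)) :
    Le (∑ i ∈ s, e i - k) (∏ i ∈ s, (u i + v i) - ∏ i ∈ s, u i) := by
  induction s using Finset.cons_induction with
  | empty => simpa using Le.zero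
  | cons i s hi ih =>
    obtain ⟨h1, h2⟩ := h i (by simp)
    have h3 := fun j hj => h j (mem_cons_of_mem hj)
    convert (((h1.add (h2.mono (by omega))).mul (ih h3)).mono (le_of_eq ?_)).add
      ((h2.mul (Le.prod fun j hj => (h3 j hj).1)).mono (le_of_eq ?_)) using 1 <;>
      simp only [sum_cons, prod_cons] <;> ring

variable [Fintype σ] [DecidableEq σ] {d : σ → ℕ} {h : σ → MvPolynomial σ R} {K : ℕ}

theorem Le.det {u : σ → MvPolynomial σ R} {v : σ → σ → MvPolynomial σ R} {e : σ → ℤ}
    (hu : ∀ i, Le (e i) (u i)) (hv : ∀ i j, Le (e i - 1) (v i j)) :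
    Le (∑ i, e i - 1) ((Matrix.diagonal u + Matrix.of v).det - ∏ i, u i) := by
  rw [← Matrix.det_diagonal, Matrix.det_apply', Matrix.det_apply', ← sum_sub_distrib]
  refine Le.sum fun π _ => ?_
  rw [← mul_sub, ← Equiv.sum_comp π, ← zero_add (_ - 1)]
  refine (Le.C _).mul (Le.lead zero_le_one fun i _ => ⟨?_, hv _ _⟩)
  rw [Matrix.diagonal_apply]
  split_ifs
  exacts [hu _, .zero]

theorem exists_div (y : σ → R) (hq : Le (e + 1) q) : ∃ g : σ → MvPolynomial σ R,
    (∀ j, Le e (g j)) ∧ q - C (eval y q) = ∑ j, g j * (X j - C (y j)) := by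
  have : ∀ m c, ∃ g : σ → MvPolynomial σ R, (∀ e, Le (e + 1) (monomial m c) → ∀ j, Le e (g j)) ∧
      monomial m c - C (eval y (monomial m c)) = ∑ j, g j * (X j - C (y j)) := by
    refine induction_on_monomial (fun _ => ⟨0, fun _ _ _ => .zero, by simp⟩) ?_
    rintro p n ⟨g, h1, h2⟩
    refine ⟨fun j => g j * X n + if j = n then C (eval y p) else 0, fun e h j => ?_, ?_⟩
    · have h3 : Le e p := fun m hm => by rw [← coeff_mul_X m n, h _ (by simp; omega)]
      refine Le.add (by simpa using (h1 (e - 1) (by simpa) j).mul (.X n)) ?_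
      split_ifs
      · rcases lt_or_ge e 0 with h4 | h4
        · simpa [show p = 0 from MvPolynomial.ext _ _ fun m => h3 m (by omega)] using Le.zero
        · exact (Le.C _).mono h4
      · exact .zero
    · simp only [add_mul, sum_add_distrib, mul_right_comm _ (X n), ← sum_mul, ← h2]
      simp; ring
  choose g h1 h2 using this
  refine ⟨fun j => ∑ m ∈ q.support, g m (coeff m q) j, fun j => Le.sum fun m hm => h1 _ _ _
    ((Le.monomial _ _).mono (not_lt.1 fun h => mem_support_iff.1 hm (hq m h))) j, ?_⟩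
  simp only [sum_mul]
  rw [sum_comm]
  simp only [← h2, sum_sub_distrib, ← map_sum, ← q.as_sum]

/-- The truncated inverse. -/
noncomputable def Gi (d : σ → ℕ) (h : σ → MvPolynomial σ R) (K : ℕ) (i : σ) : MvPolynomial σ R :=
  ∑ k ∈ range (K + 1), (X i ^ d i) ^ k * h i ^ (K + 1 - 1 - k)

/-- The exponent that is read off. -/
noncomputable def gam (d : σ → ℕ) (K : ℕ) : σ →₀ ℕ :=
  Finsupp.equivFunOnFinite.symm fun i => d i * (K + 1) - 1

/-- The truncated residue. -/
noncomputable def tau (d : σ → ℕ) (h : σ → MvPolynomial σ R) (K : ℕ) (q : MvPolynomial σ R) : R :=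
  coeff (gam d K) (q * ∏ i, Gi d h K i)

theorem map_tau (φ : R →+* R') : φ (tau d h K q) = tau d (fun i => map φ (h i)) K (map φ q) := by
  simp [tau, Gi, ← coeff_map]

/-- Systems of Pham type. -/
def Ph (d : σ → ℕ) (h : σ → MvPolynomial σ R) : Prop := ∀ i, 1 ≤ d i ∧ Le (d i - 1) (h i)

theorem Ph.Gi (H : Ph d h) (K : ℕ) (i : σ) : Le (d i * K) (Gi d h K i) := Le.sum fun k hk => by
  refine ((((Le.X i).pow _).pow _).mul ((H i).2.pow _)).mono ?_
  rw [mem_range] at hk
  rw [Nat.add_sub_cancel, Nat.cast_sub (by omega)]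
  nlinarith [show (k : ℤ) ≤ K by omega]

theorem Ph.gam (H : Ph d h) (K : ℕ) : ((gam d K).degree : ℤ) = ∑ i, ((d i : ℤ) * (K + 1) - 1) := by
  simp [P337.gam, Finsupp.degree_eq_sum, Nat.cast_sub (Nat.mul_pos (H _).1 K.succ_pos)]

theorem prod_X_pow (f : σ → ℕ) : ∏ i, (X i : MvPolynomial σ R) ^ f i =
    monomial (Finsupp.equivFunOnFinite.symm f) 1 := by
  rw [monomial_eq, Finsupp.prod_fintype] <;> simp

theorem Ph.succ (H : Ph d h) (hq : Le (∑ i, ((d i : ℤ) - 1) + K) q) :
    tau d h (K + 1) q = tau d h K q := by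
  have h1 := hq.mul (Le.lead (s := univ) (k := K + 1) (u := fun i => X i ^ d i * P337.Gi d h K i)
    (v := fun i => h i ^ (K + 1)) (e := fun i => d i * (K + 1)) (by omega) fun i _ =>
      ⟨(((Le.X i).pow _).mul (H.Gi K i)).mono (le_of_eq (by ring)),
        ((H i).2.pow _).mono (le_of_eq (by push_cast; ring))⟩) _ (show _ < ((P337.gam d (K + 1)).degree : ℤ) by
      simp only [H.gam, sum_sub_distrib, Nat.cast_add, mul_add, sum_add_distrib, Nat.cast_one, mul_one]
      omega)
  rw [mul_sub, coeff_sub, sub_eq_zero, prod_mul_distrib, prod_X_pow, mul_left_comm] at h1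
  refine Eq.trans ?_ (h1.trans ?_)
  · rw [tau]; congr; ext1 i
    rw [P337.Gi, sum_range_succ', P337.Gi, mul_sum]
    simp [pow_succ', mul_assoc]
  · rw [show P337.gam d (K + 1) = Finsupp.equivFunOnFinite.symm d + P337.gam d K by
      ext i; have := Nat.mul_pos (H i).1 K.succ_pos; simp [P337.gam, mul_add] at this ⊢; omega,
      coeff_monomial_mul, one_mul, tau]

theorem Ph.le (H : Ph d h) (hq : Le (∑ i, ((d i : ℤ) - 1) + K) q) {K' : ℕ} (hK : K ≤ K') :
    tau d h K' q = tau d h K q :=
  Nat.le_induction rfl (fun k hk ih => (H.succ (hq.mono (by omega))).trans ih) _ hK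

theorem Ph.ideal (H : Ph d h) (hq : Le (K - 1) q) (i : σ) :
    tau d h K (q * (X i ^ d i - h i)) = 0 := by
  rw [tau, ← mul_prod_erase _ _ (mem_univ i), mul_assoc, ← mul_assoc (_ - _), mul_comm (_ - _),
    P337.Gi, geom_sum₂_mul, sub_mul, mul_sub, coeff_sub, (hq.mul (((H i).2.pow _).mul
      (Le.prod fun j _ => H.Gi K j))) _ ?_, mul_left_comm, ← pow_mul, X_pow_eq_monomial,
      coeff_monomial_mul', if_neg, sub_zero]
  · exact fun h => (Nat.sub_one_lt (Nat.mul_pos (H i).1 K.succ_pos).ne').not_ge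
      (Finsupp.single_le_iff.1 h)
  · have := sum_le_sum (s := univ.erase i) (f := fun j => (d j : ℤ) * K)
      (g := fun j => d j * (K + 1) - 1) fun j _ => by have := (H j).1; rw [mul_add]; omega
    rw [H.gam, ← add_sum_erase _ _ (mem_univ i)]
    push_cast
    linarith

/-- The residue. -/
noncomputable def Ph.res (H : Ph d h) : MvPolynomial σ R →ₗ[R] R :=
  have key : ∀ {q K}, q.totalDegree ≤ K → tau d h K q = tau d h q.totalDegree q := fun hK =>
    H.le ((le_iff.2 le_rfl).mono (le_add_of_nonneg_left (sum_nonneg fun i _ => by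
      have := (H i).1; omega))) hK
  { toFun q := tau d h q.totalDegree q
    map_add' p q := by
      rw [← key (totalDegree_add p q), ← key (le_max_left _ q.totalDegree),
        ← key (le_max_right p.totalDegree _)]
      simp [tau, add_mul]
    map_smul' c q := by rw [← key (totalDegree_smul_le c q)]; simp [tau] }

theorem Ph.res_eq (H : Ph d h) (hq : Le (∑ i, ((d i : ℤ) - 1) + K) q) : H.res q = tau d h K q := by
  rw [← H.le hq (le_max_left _ q.totalDegree)]
  exact (H.le ((le_iff.2 le_rfl).mono (le_add_of_nonneg_left (sum_nonneg fun i _ => by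
    have := (H i).1; omega))) (le_max_right _ _)).symm

theorem Ph.res_ideal (H : Ph d h) (q : MvPolynomial σ R) (i : σ) :
    H.res (q * (X i ^ d i - h i)) = 0 := by
  have := (H i).1
  rw [H.res_eq (K := q.totalDegree + d i) (((le_iff.2 le_rfl).mul (((Le.X i).pow _).sub
    ((H i).2.mono (by omega)))).mono (by
      simpa using sum_nonneg (s := univ) (f := fun i => (d i : ℤ) - 1) fun i _ => by
        have := (H i).1; omega)),
    H.ideal ((le_iff.2 le_rfl).mono (by omega))]

theorem Ph.res_det (H : Ph d h) (c : σ → R) {v : σ → σ → MvPolynomial σ R}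
    (hv : ∀ i j, Le (d i - 1 - 1) (v i j)) :
    Le (∑ i, ((d i : ℤ) - 1)) (Matrix.diagonal (fun i => C (c i) * X i ^ (d i - 1)) + Matrix.of v).det ∧
    H.res (Matrix.diagonal (fun i => C (c i) * X i ^ (d i - 1)) + Matrix.of v).det = ∏ i, c i := by
  have h0 : ∀ i, Le (d i - 1) (C (c i) * X i ^ (d i - 1) : MvPolynomial σ R) := fun i => by
    simpa [Nat.cast_sub (H i).1] using (Le.C (c i)).mul ((Le.X i).pow (d i - 1))
  have h1 := Le.det h0 hv
  have h2 := (h1.mono (by omega)).add (Le.prod (s := univ) fun i _ => h0 i)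
  rw [sub_add_cancel] at h2
  have := h1 (P337.gam d 0) (by simp [H.gam])
  rw [coeff_sub, sub_eq_zero, prod_mul_distrib, prod_X_pow, ← map_prod, coeff_C_mul] at this
  exact ⟨h2, by simpa [H.res_eq (K := 0) (by simpa using h2), tau, P337.Gi, P337.gam] using this⟩

end Vale.Agent.P337
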