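import Vale.Agent.P337.Tr

/-! Norms through Newton's identities. -/

namespace Vale.Agent.P337

open Finset

set_option linter.unusedSectionVars false

variable {σ R R' : Type} [CommRing R] [CommRing R']

/-- The factorial without one factor. -/
def cc (N k : ℕ) : ℕ := ∏ i ∈ range N, if i = k then 1 else i + 1

/-- The scaled exponential coefficients. -/
def ee (N m : ℕ) : ℕ := ∏ i ∈ range N, if i < m then 1 else (i + 1) * ∏ j ∈ range N, (j + 1)

section
open Polynomial

/-- The scaled exponential of the logarithm. -/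
noncomputable def nwP (N : ℕ) (t : ℕ → R) : R[X] := ∑ m ∈ range (N + 1), (ee N m : R[X]) *
  (-∑ k ∈ range N, C (cc N k * t (k + 1)) * X ^ (k + 1)) ^ m

/-- The Newton formula. -/
noncomputable def nw (N : ℕ) (t : ℕ → R) : R := ∑ k ∈ range (N + 1), (nwP N t).coeff k

theorem map_nw (φ : R →+* R') (N : ℕ) (t : ℕ → R) : φ (nw N t) = nw N fun k => φ (t k) := by
  simp [nw, nwP, ← coeff_map, Polynomial.map_sum]

theorem natDegree_nwP (N : ℕ) (t : ℕ → R) : (nwP N t).natDegree ≤ N * N :=
  natDegree_sum_le_of_forall_le _ _ fun m hm => natDegree_mul_le.trans (by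
    rw [natDegree_natCast, zero_add]
    refine natDegree_pow_le.trans (Nat.mul_le_mul (Nat.le_of_lt_succ (mem_range.1 hm)) ?_)
    rw [natDegree_neg]
    exact natDegree_sum_le_of_forall_le _ _ fun k hk => (natDegree_C_mul_X_pow_le _ _).trans
      (mem_range.1 hk))

theorem cc_mul {N k : ℕ} (h : k < N) : cc N k * (k + 1) = N.factorial := by
  rw [← prod_range_add_one_eq_factorial, cc, ← mul_prod_erase _ _ (mem_range.2 h),
    ← mul_prod_erase _ (· + 1) (mem_range.2 h), if_pos rfl, one_mul, mul_comm,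
    prod_congr rfl fun i hi => if_neg (mem_erase.1 hi).1]

theorem ee_succ {N m : ℕ} (h : m < N) : ee N (m + 1) * (m + 1) * N.factorial = ee N m := by
  rw [ee, ee, prod_range_add_one_eq_factorial, ← mul_prod_erase _ _ (mem_range.2 h),
    ← mul_prod_erase _ (fun i => if i < m then _ else _) (mem_range.2 h),
    if_pos m.lt_succ_self, if_neg (lt_irrefl _), prod_congr rfl fun i hi => if_congr (show i < m + 1 ↔ i < m by have := (mem_erase.1 hi).1; omega)
      rfl rfl]
  ring

theorem ee_pos (N m : ℕ) : 0 < ee N m := prod_pos fun _ _ => by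
  split_ifs
  exacts [one_pos, Nat.mul_pos (by omega) (prod_pos fun _ _ => by omega)]

theorem ode {D l : ℂ[X]} {N : ℕ} (h0 : D.coeff 0 = 0) (h : X ^ N ∣ derivative D - l * D) :
    X ^ (N + 1) ∣ D := by
  have : ∀ j ≤ N + 1, X ^ j ∣ D := fun j hj => by
    induction j with
    | zero => simp
    | succ j ih =>
      have h1 : X ^ j ∣ derivative D := by
        simpa using dvd_add ((pow_dvd_pow _ (by omega)).trans h) ((ih (by omega)).mul_left l)
      rw [X_pow_dvd_iff] at h1 ⊢
      rintro (_ | k) hk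
      · exact h0
      · simpa [coeff_derivative, Nat.cast_add_one_ne_zero] using h1 k (by omega)
  exact this _ le_rfl

theorem nw_eq {N : ℕ} {s : Multiset ℂ} (hs : s.card ≤ N) {t : ℕ → ℂ}
    (ht : ∀ k ≤ N, t k = (s.map (· ^ k)).sum) : nw N t = ee N 0 * (s.map (1 - ·)).prod := by
  obtain ⟨l, hl⟩ : ∃ l : Multiset ℂ → ℂ[X], ∀ s, l s =
    -∑ k ∈ range N, C (s.map (· ^ (k + 1))).sum * X ^ k := ⟨_, fun _ => rfl⟩
  have h1 : ∀ s : Multiset ℂ, X ^ N ∣ derivative (s.map fun a => 1 - C a * X).prod -
      l s * (s.map fun a => 1 - C a * X).prod := fun s => by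
    induction s using Multiset.induction_on with
    | empty => simp [hl]
    | cons a s ih =>
      have : l (a ::ₘ s) = l s - C a * ∑ k ∈ range N, (C a * X) ^ k := by
        simp [hl, add_mul, sum_add_distrib, mul_sum, mul_pow, pow_succ', mul_assoc]; ring
      convert dvd_sub (ih.mul_left (1 - C a * X))
        (dvd_mul_right _ (C a ^ (N + 1) * (s.map fun a => 1 - C a * X).prod)) using 1
      simp only [Multiset.map_cons, Multiset.prod_cons, derivative_mul, this]
      simp
      linear_combination (C a * (s.map fun a => 1 - C a * X).prod) * mul_neg_geom_sum (C a * X) N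
  obtain ⟨L, hL⟩ : ∃ L : ℂ[X], L = -∑ k ∈ range N, C (cc N k * t (k + 1)) * X ^ (k + 1) := ⟨_, rfl⟩
  have h2 : derivative L = N.factorial * l s := by
    simp only [hL, hl, derivative_neg, derivative_sum, derivative_C_mul_X_pow, mul_neg, mul_sum]
    refine congrArg _ (sum_congr rfl fun k hk => ?_)
    rw [ht _ (mem_range.1 hk), ← cc_mul (mem_range.1 hk)]
    simp; ring
  have h3 : X ∣ L := hL ▸ (dvd_neg.2 (dvd_sum fun k _ => (dvd_pow_self _ k.succ_ne_zero).mul_left _))
  have h4 : derivative (nwP N t) - l s * nwP N t = -(l s * (ee N N * L ^ N)) := by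
    rw [nwP, ← hL, derivative_sum, sum_range_succ', sum_range_succ, mul_add, mul_sum,
      sum_congr rfl fun m hm => show _ = l s * (ee N m * L ^ m) by
        rw [← ee_succ (mem_range.1 hm)]; simp [derivative_pow_succ, h2]; ring]
    simp
  have h5 := ode (N := N) (l := l s) (D := nwP N t - ee N 0 * (s.map fun a => 1 - C a * X).prod) (by
    obtain ⟨u, rfl⟩ := h3
    rw [nwP, ← hL, sum_range_succ']
    simp [coeff_zero_eq_eval_zero, eval_finsetSum, eval_multiset_prod]) (by
    convert dvd_sub (h4 ▸ dvd_neg.2 (((pow_dvd_pow_of_dvd h3 N).mul_left _).mul_left _))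
      ((h1 s).mul_left (ee N 0)) using 1
    simp; ring)
  rw [X_pow_dvd_iff] at h5
  have := eval_eq_sum_range' (p := (s.map fun a => 1 - C a * X).prod) (n := N + 1) (by
    refine Nat.lt_succ_of_le ((natDegree_multiset_prod_le _).trans (le_trans ?_ hs))
    simpa using Multiset.sum_le_card_nsmul ((s.map fun a => 1 - C a * X).map natDegree) 1 (by
      simp only [Multiset.map_map, Multiset.forall_mem_map_iff]
      intro a _; dsimp; compute_degree)) 1
  simp only [eval_multiset_prod, Multiset.map_map, Function.comp_def, one_pow, mul_one, eval_sub,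
    eval_one, eval_mul, eval_C, eval_X] at this
  rw [this, nw, mul_sum]
  exact sum_congr rfl fun k hk => by simpa [sub_eq_zero] using h5 k (mem_range.1 hk)

end

open MvPolynomial

variable [Fintype σ] [DecidableEq σ] {d : σ → ℕ} {N K : ℕ}

/-- The scaled norm. -/
noncomputable def Nm (N K : ℕ) (d : σ → ℕ) (h : σ → MvPolynomial σ R) (ψ : MvPolynomial σ R) : R :=
  nw N fun k => tau d h K ((1 - ψ) ^ k * Jac d h)

theorem map_Nm (φ : R →+* R') (h : σ → MvPolynomial σ R) (ψ : MvPolynomial σ R) :
    φ (Nm N K d h ψ) = Nm N K d (fun i => map φ (h i)) (map φ ψ) := by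
  simp [Nm, map_nw, map_tau, map_Jac]

/-- The multiset of solutions. -/
def Sol (d : σ → ℕ) (h : σ → MvPolynomial σ ℂ) (S : Multiset (σ → ℂ)) : Prop :=
  S.card = ∏ i, d i ∧ (∀ x, x ∈ S ↔ ∀ i, x i ^ d i = eval x (h i)) ∧ ∀ (N K e : ℕ) ψ, S.card ≤ N →
    Le e ψ → N * e ≤ K → Nm N K d h ψ = ee N 0 * (S.map (eval · ψ)).prod

theorem Ph.sol {h : σ → MvPolynomial σ ℂ} (H : Ph d h) : ∃ S, Sol d h S := by
  obtain ⟨S, h1, h2, h3⟩ := H.trace
  refine ⟨S, h1, h2, fun N K e ψ hN he hK => ?_⟩
  rw [Nm, nw_eq (s := S.map fun x => 1 - eval x ψ) (by simpa) fun k hk => ?_]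
  · simp
  · rw [← C_1, ← H.res_eq (((((Le.C 1).mono (by omega)).sub he).pow k).mul H.jac.1 |>.mono (by
      have := (Nat.mul_le_mul_right e hk).trans hK
      rw [add_comm]; exact_mod_cast add_le_add_right (by exact_mod_cast this) _)), h3]
    simp

end Vale.Agent.P337
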