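import Mathlib

/-! Detecting a real element in a conjugation invariant multiset. -/

namespace Vale.Agent.P337

open Finset Complex ComplexConjugate Classical

variable {R R' : Type} [CommRing R] [CommRing R'] {L k κ r N : ℕ} {z : ℂ}

/-- The numerator and denominator of a rational approximation of a step function. -/
def Bf (L k s : ℕ) (z : R) : R :=
  s * (∏ j ∈ range L, (z + 2 ^ j)) ^ k + (∏ j ∈ range L, (-z + 2 ^ j)) ^ k

theorem map_Bf {F : Type} [FunLike F R R'] [RingHomClass F R R'] (φ : F) (L k s : ℕ) (z : R) :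
    φ (Bf L k s z) = Bf L k s (φ z) := by
  simp [Bf, map_ofNat]

theorem small (h1 : ‖z‖ ≤ κ * z.re) (h2 : 1 ≤ ‖z‖) (h3 : ‖z‖ < 2 ^ L) :
    ∏ j ∈ range L, (z + 2 ^ j) ≠ 0 ∧ ‖(∏ j ∈ range L, (-z + 2 ^ j)) ^ (4 * κ * r)‖ ≤
      (1 / 2) ^ r * ‖(∏ j ∈ range L, (z + 2 ^ j)) ^ (4 * κ * r)‖ := by
  have hκ : (1 : ℝ) ≤ κ := by
    rcases κ with _ | κ
    · simp at h1; simp [h1] at h2; linarith
    · simp
  have h4 : 0 < z.re := by nlinarith
  have h5 : ∀ a : ℝ, ‖z + a‖ ^ 2 = ‖-z + a‖ ^ 2 + 4 * a * z.re := fun a => by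
    simp [Complex.sq_norm, normSq_apply]; ring
  refine ⟨prod_ne_zero_iff.2 fun j _ h => by
    have := congrArg re h
    rw [← ofReal_ofNat, ← ofReal_pow, add_re, ofReal_re] at this
    exact absurd this (by positivity), ?_⟩
  obtain ⟨j, a1, a2⟩ := exists_nat_pow_near h2 one_lt_two
  have hj : j ∈ range L := mem_range.2 ((pow_lt_pow_iff_right₀ one_lt_two).1 (a1.trans_lt h3))
  have a3 : ‖-z + 2 ^ j‖ ≤ (1 - 1 / (4 * κ)) * ‖z + 2 ^ j‖ := by
    have b1 := h5 (2 ^ j)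
    have b2 := norm_add_le z (2 ^ j)
    rw [pow_succ] at a2
    simp only [ofReal_pow, ofReal_ofNat, norm_pow, Complex.norm_ofNat] at b1 b2
    have b3 : 0 < (2 : ℝ) ^ j := by positivity
    generalize (2 : ℝ) ^ j = a at *
    obtain ⟨x, hx⟩ : ∃ x, x = 1 / (4 * κ : ℝ) := ⟨_, rfl⟩
    have b4 : 4 * κ * x = 1 := by rw [hx]; field_simp
    have b5 : 0 < x := by rw [hx]; positivity
    have b6 : ‖z + 2 ^ j‖ ^ 2 ≤ 8 * a * (κ * z.re) :=
      (pow_le_pow_left₀ (norm_nonneg _) b2 2).trans (by nlinarith)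
    rw [← hx]
    refine abs_le_of_sq_le_sq' ?_ (mul_nonneg (by nlinarith) (norm_nonneg _)) |>.2
    have := mul_le_mul_of_nonneg_left b6 (show 0 ≤ 2 * x by positivity)
    have b7 : 2 * x * (8 * a * (κ * z.re)) = 4 * a * z.re := by linear_combination 4 * a * z.re * b4
    nlinarith [sq_nonneg (x * ‖z + 2 ^ j‖)]
  have a4 : (1 - 1 / (4 * κ : ℝ)) ^ (4 * κ) ≤ 1 / 2 := by
    have := Real.one_sub_div_pow_le_exp_neg (n := 4 * κ) (t := 1) (by push_cast; linarith)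
    push_cast at this
    exact this.trans (Real.exp_neg_one_lt_d9.le.trans (by norm_num))
  have a5 : 0 ≤ 1 - 1 / (4 * κ : ℝ) := sub_nonneg.2 (div_le_one_of_le₀ (by linarith) (by linarith))
  rw [norm_pow, norm_pow]
  refine le_trans (pow_le_pow_left₀ (norm_nonneg _) ?_ _) ((mul_pow (1 - 1 / (4 * κ : ℝ)) _ _).trans_le
    (mul_le_mul_of_nonneg_right (by rw [pow_mul]; gcongr) (by positivity)))
  rw [← mul_prod_erase _ _ hj, ← mul_prod_erase _ (fun j => z + 2 ^ j) hj, norm_mul, norm_mul,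
    ← mul_assoc, norm_prod, norm_prod]
  gcongr with i
  refine abs_le_of_sq_le_sq' ?_ (norm_nonneg _) |>.2
  simpa using (le_add_of_nonneg_right (by positivity)).trans (h5 (2 ^ i)).ge

/-- The step function. -/
noncomputable def st (z : ℂ) : ℝ := if 0 < z.re then 2 else if z.re = 0 then 3 / 2 else 1

theorem st_mono {y : ℂ} (h : y.re ≤ z.re) : 1 ≤ st y ∧ st y ≤ st z ∧ st z ≤ 2 := by
  unfold st
  split_ifs <;> norm_num <;> grind

theorem quot_small {a b : ℂ} {η : ℝ} (ha : a ≠ 0) (h : ‖b‖ ≤ η * ‖a‖) (h' : η ≤ 1 / 2) :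
    a + b ≠ 0 ∧ ‖b / (a + b)‖ ≤ 2 * η := by
  have h0 := norm_pos_iff.2 ha
  have h1 : ‖a‖ ≤ ‖a + b‖ + ‖b‖ := by simpa using norm_sub_le (a + b) b
  have h2 : 0 < ‖a + b‖ := by nlinarith
  have h3 : 0 ≤ η := nonneg_of_mul_nonneg_left ((norm_nonneg _).trans h) h0
  exact ⟨norm_pos_iff.1 h2, by
    rw [norm_div, div_le_iff₀ h2]
    nlinarith [mul_le_mul_of_nonneg_left (show ‖a‖ ≤ 2 * ‖a + b‖ by nlinarith) h3]⟩

theorem close (hr : 1 ≤ r) (h : z = 0 ∨ ‖z‖ ≤ κ * |z.re| ∧ 1 ≤ ‖z‖ ∧ ‖z‖ < 2 ^ L) :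
    Bf L (4 * κ * r) 1 z ≠ 0 ∧
      ‖Bf L (4 * κ * r) 2 z / Bf L (4 * κ * r) 1 z - st z‖ ≤ 2 * (1 / 2) ^ r := by
  have h0 : (1 / 2 : ℝ) ^ r ≤ 1 / 2 := pow_le_of_le_one (by norm_num) (by norm_num) (by omega)
  simp only [Bf, st, Nat.cast_one, one_mul, Nat.cast_ofNat]
  obtain rfl | ⟨h1, h2, h3⟩ := h
  · have : (∏ j ∈ range L, (2 : ℂ) ^ j) ^ (4 * κ * r) ≠ 0 := by simp [prod_eq_zero_iff]
    simp only [neg_zero, zero_add, ← two_mul, ← add_one_mul, mul_div_mul_right _ _ this]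
    exact ⟨mul_ne_zero two_ne_zero this, by norm_num⟩
  rcases lt_trichotomy 0 z.re with h4 | h4 | h4
  · obtain ⟨a1, a2⟩ := small (r := r) (abs_of_pos h4 ▸ h1) h2 h3
    obtain ⟨a3, a4⟩ := quot_small (pow_ne_zero _ a1) a2 h0
    refine ⟨a3, a4.trans_eq' ((norm_neg _).symm.trans (congrArg _ ?_))⟩
    simp only [h4, if_true, ofReal_ofNat]; field_simp; ring
  · simp [← h4] at h1; simp [h1] at h2; linarith
  · obtain ⟨a1, a2⟩ := small (z := -z) (r := r) (by simpa [abs_of_neg h4] using h1) (by simpa) (by simpa)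
    obtain ⟨a3, a4⟩ := quot_small (pow_ne_zero _ a1) a2 h0
    rw [neg_neg, add_comm] at a3 a4
    refine ⟨a3, a4.trans_eq' (congrArg _ ?_)⟩
    simp only [h4.not_gt, h4.ne, if_false, ofReal_one]; field_simp; ring

theorem prod_close {ι : Type} {s : Multiset ι} {f g : ι → ℂ} {ε : ℝ} (hε : 0 ≤ ε)
    (h : ∀ x ∈ s, ‖f x - g x‖ ≤ ε ∧ ‖f x‖ ≤ 3 ∧ ‖g x‖ ≤ 3) :
    ‖(s.map f).prod - (s.map g).prod‖ ≤ ε * 4 ^ s.card ∧ ‖(s.map f).prod‖ ≤ 4 ^ s.card := by
  induction s using Multiset.induction_on with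
  | empty => simpa
  | cons a s ih =>
    obtain ⟨⟨h1, h2, h3⟩, h4⟩ := Multiset.forall_mem_cons.1 h
    obtain ⟨h5, h6⟩ := ih h4
    simp only [Multiset.map_cons, Multiset.prod_cons, Multiset.card_cons, pow_succ, norm_mul]
    refine ⟨?_, by nlinarith [norm_nonneg (f a), norm_nonneg (s.map f).prod]⟩
    rw [show _ - _ = (f a - g a) * (s.map f).prod + g a * ((s.map f).prod - (s.map g).prod) by ring]
    grw [norm_add_le, norm_mul, norm_mul, h1, h3, h5, h6]
    exact le_of_eq (by ring)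

/-- The products over the multiset. -/
noncomputable def Pr (L k s : ℕ) (B : Multiset ℂ) (ω v : ℂ) : ℂ :=
  (B.map fun v' => Bf L k s (ω * (v - v'))).prod

theorem st_gap {B : Multiset ℂ} {ω v u : ℂ} (hv : v ∈ B) (h : (ω * u).re < (ω * v).re) :
    (B.map fun v' => st (ω * (u - v'))).prod + 1 / 2 ≤ (B.map fun v' => st (ω * (v - v'))).prod := by
  obtain ⟨B, rfl⟩ := Multiset.exists_cons_of_mem hv
  have h1 : ∀ v', (ω * (u - v')).re ≤ (ω * (v - v')).re := fun v' => by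
    rw [mul_sub, mul_sub, sub_re, sub_re]; linarith
  have h2 := Multiset.prod_map_le_prod_map₀ (s := B) _ _
    (fun v' _ => zero_le_one.trans (st_mono (h1 v')).1) fun v' _ => (st_mono (h1 v')).2.1
  have h3 := Multiset.prod_map_le_prod_map₀ (s := B) (fun _ => (1 : ℝ)) _
    (fun v' _ => zero_le_one) fun v' _ => (st_mono (h1 v')).1
  have h4 : (ω * (u - v)).re < 0 := by rw [mul_sub, sub_re]; linarith
  simp only [Multiset.map_cons, Multiset.prod_cons, sub_self, mul_zero]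
  rw [show st 0 = 3 / 2 by simp [st], show st (ω * (u - v)) = 1 by simp only [st, h4.not_gt, h4.ne, if_false]]
  simp at h3
  linarith

/-- The test. -/
def Ts (L k N : ℕ) (B : Multiset ℂ) (ω : ℂ) : Prop :=
  4 ^ N * (B.map fun v => ‖Pr L k 2 B ω v * Pr L k 1 B (conj ω) v -
    Pr L k 2 B (conj ω) v * Pr L k 1 B ω v‖).prod <
    (B.map fun v => ‖Pr L k 1 B ω v * Pr L k 1 B (conj ω) v‖).prod

theorem rank_good {B : Multiset ℂ} (hN : B.card ≤ N) (hB : B.map conj = B) {ω : ℂ}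
    (h : ∀ v ∈ B, ∀ v' ∈ B, v ≠ v' → ‖ω * (v - v')‖ ≤ κ * |(ω * (v - v')).re| ∧
      1 ≤ ‖ω * (v - v')‖ ∧ ‖ω * (v - v')‖ < 2 ^ L) :
    Ts L (4 * κ * (2 * N * N + 5 * N + 4)) N B ω ↔ ∃ v ∈ B, v.im = 0 := by
  obtain ⟨r, hr⟩ : ∃ r, r = 2 * N * N + 5 * N + 4 := ⟨_, rfl⟩
  obtain ⟨k, hk⟩ : ∃ k, k = 4 * κ * r := ⟨_, rfl⟩
  rw [← hr, ← hk]
  have h0 : (1 / 2 : ℝ) ^ r ≤ 1 / 2 := pow_le_of_le_one (by norm_num) (by norm_num) (by omega)
  have h1 : ∀ v ∈ B, conj v ∈ B := fun v hv => hB ▸ Multiset.mem_map_of_mem _ hv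
  have h2 : ∀ s v, Pr L k s B (conj ω) v = conj (Pr L k s B ω (conj v)) := fun s v => by
    rw [Pr, Pr, map_multiset_prod]
    conv_lhs => rw [← hB]
    simp [map_Bf]
  have h3 := fun v (hv : v ∈ B) v' (hv' : v' ∈ B) => hk ▸ close (κ := κ) (r := r) (L := L)
    (z := ω * (v - v')) (by omega) (by by_cases e : v = v'; exacts [.inl (by simp [e]), .inr (h v hv v' hv' e)])
  have h4 : ∀ v ∈ B, Pr L k 1 B ω v ≠ 0 := fun v hv => Multiset.prod_ne_zero (by
    simpa using fun v' hv' => (h3 v hv v' hv').1)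
  obtain ⟨W, hW⟩ : ∃ W : ℂ → ℂ, ∀ v, W v = Pr L k 2 B ω v / Pr L k 1 B ω v := ⟨_, fun _ => rfl⟩
  obtain ⟨S, hS⟩ : ∃ S : ℂ → ℝ, ∀ v, S v = (B.map fun v' => st (ω * (v - v'))).prod := ⟨_, fun _ => rfl⟩
  have h5 : ∀ v ∈ B, ‖W v - S v‖ ≤ 2 * (1 / 2) ^ r * 4 ^ N ∧ ‖W v‖ ≤ 4 ^ N := fun v hv => by
    have := prod_close (s := B) (by positivity) fun v' hv' => ⟨(h3 v hv v' hv').2, by
      have := st_mono (le_refl (ω * (v - v')).re)
      have a : ‖(st (ω * (v - v')) : ℂ)‖ ≤ 2 := by rw [norm_real, Real.norm_of_nonneg] <;> linarith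
      exact ⟨by linarith [(h3 v hv v' hv').2, norm_le_norm_add_norm_sub' (Bf L k 2 (ω * (v - v')) /
        Bf L k 1 (ω * (v - v'))) (st (ω * (v - v')))], by linarith⟩⟩
    have a : (4 : ℝ) ^ B.card ≤ 4 ^ N := by gcongr; norm_num
    rw [hW, hS, Pr, Pr, ← Multiset.prod_map_div, ← ofRealHom_eq_coe, map_multiset_prod, Multiset.map_map]
    exact ⟨this.1.trans (by gcongr), this.2.trans a⟩
  rw [Ts, Multiset.map_congr rfl fun v hv => show _ = ‖W v - conj (W (conj v))‖ *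
    ‖Pr L k 1 B ω v * Pr L k 1 B (conj ω) v‖ by
      have := h4 v hv
      have := (map_ne_zero conj).2 (h4 _ (h1 v hv))
      rw [← norm_mul, hW, hW, h2, h2, map_div₀]; congr 1; field_simp, Multiset.prod_map_mul, ← mul_assoc,
    mul_lt_iff_lt_one_left (Multiset.prod_pos (by
      simpa [h2] using fun v hv => mul_pos (norm_pos_iff.2 (h4 v hv)) (norm_pos_iff.2 (h4 _ (h1 v hv)))))]
  have h6 : ∀ v ∈ B, ‖conj (W (conj v)) - S (conj v)‖ ≤ 2 * (1 / 2) ^ r * 4 ^ N := fun v hv => by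
    rw [← conj_ofReal, ← map_sub, norm_conj]; exact (h5 _ (h1 v hv)).1
  have h7 : (4 : ℝ) = 2 ^ 2 := by norm_num
  constructor
  · contrapose!
    intro hv
    have := Multiset.prod_map_le_prod_map₀ (s := B) (fun _ => (1 / 4 : ℝ))
      (fun v => ‖W v - conj (W (conj v))‖) (by simp) fun v hv' => by
        have a1 := (h v hv' _ (h1 v hv') fun e => hv v hv' (conj_eq_iff_im.1 e.symm))
        have a2 : 1 / 2 ≤ ‖(S v : ℂ) - S (conj v)‖ := by
          rw [← ofReal_sub, norm_real, Real.norm_eq_abs, le_abs, hS, hS]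
          rcases lt_trichotomy (ω * v).re (ω * conj v).re with a | a | a
          · exact .inr (by linarith [st_gap (h1 v hv') a])
          · rw [mul_sub, sub_re, a] at a1; norm_num at a1; norm_num [a1.1] at a1
          · exact .inl (by linarith [st_gap hv' a])
        have a3 : 2 * (1 / 2 : ℝ) ^ r * 4 ^ N ≤ 1 / 8 := by
          rw [h7, ← pow_mul, one_div_pow]; field_simp
          exact_mod_cast (show 2 * 2 ^ (2 * N) * 8 = 2 ^ (2 * N + 4) by ring).trans_le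
            (Nat.pow_le_pow_right two_pos (by omega))
        have := norm_sub_le_norm_sub_add_norm_sub (S v : ℂ) (W v) (S (conj v))
        have := norm_sub_le_norm_sub_add_norm_sub (W v) (conj (W (conj v))) (S (conj v))
        linarith [(h5 v hv').1, h6 v hv', norm_sub_rev (W v) (S v)]
    grw [← this]
    simpa [le_mul_inv_iff₀] using pow_le_pow_right₀ (by norm_num : (1 : ℝ) ≤ 4) hN
  · rintro ⟨v, hv, hv'⟩
    have a1 := h6 v hv
    have a2 := norm_sub_le_norm_sub_add_norm_sub (W v) (S v) (conj (W (conj v)))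
    rw [norm_sub_rev, show S (conj v) = S v by rw [conj_eq_iff_im.2 hv']] at a1
    obtain ⟨B', rfl⟩ := Multiset.exists_cons_of_mem hv
    have := Multiset.prod_map_le_prod_map₀ (s := B') (fun v => ‖W v - conj (W (conj v))‖)
      (fun _ => 2 * 4 ^ N) (by simp) fun u hu => by
        have := Multiset.mem_cons_of_mem (b := v) hu
        grw [norm_sub_le, norm_conj, (h5 u this).2, (h5 _ (h1 u this)).2, two_mul]
    rw [Multiset.map_const', Multiset.prod_replicate] at this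
    have a3 : (2 * 4 ^ N : ℝ) ^ B'.card ≤ (2 * 4 ^ N) ^ N := pow_le_pow_right₀
      (by linarith [one_le_pow₀ (n := N) (by norm_num : (1 : ℝ) ≤ 4)]) (by simp at hN; omega)
    have a4 := Multiset.prod_map_nonneg (s := B') (f := fun v => ‖W v - conj (W (conj v))‖) (by simp)
    grw [Multiset.map_cons, Multiset.prod_cons, this, a2, a1, (h5 v hv).1, a3]
    rw [hr, h7, one_div_pow, mul_pow]
    simp only [← pow_mul]
    field_simp; ring_nf
    have : (0 : ℝ) < 2 ^ (N * 5) * 2 ^ (N ^ 2 * 2) := by positivity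
    linarith

theorem rank {B : Multiset ℂ} (hN : B.card ≤ N) (hB : B.map conj = B) {M : ℕ}
    (h : ∀ v ∈ B, ∀ v' ∈ B, v ≠ v' → 1 ≤ M * ‖v - v'‖ ∧ M * (2 * (2 * N * N + 1)) * ‖v - v'‖ < 2 ^ L) :
    N * N < ((range (2 * N * N + 1)).filter fun b : ℕ => Ts L (4 * (12 * (2 * N * N + 1)) *
      (2 * N * N + 5 * N + 4)) N B (M * ((2 * N * N + 1 : ℕ) + b * I))).card ↔ ∃ v ∈ B, v.im = 0 := by
  obtain ⟨c, hc⟩ : ∃ c, c = 2 * N * N + 1 := ⟨_, rfl⟩
  have h0 : (1 : ℝ) ≤ c := by simp [hc]; positivity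
  have hre : ∀ (a : ℕ) (z : ℂ), (a * z).re = a * z.re := by simp
  have h1 : ∀ z : ℂ, ((range c).filter fun b : ℕ => 6 * |((c + b * I) * z).re| < ‖z‖).card ≤ 1 :=
    fun z => card_le_one.2 fun a ha b hb => by_contra fun e => by
      simp only [mem_filter, mem_range, add_mul, add_re, mul_assoc, hre, I_mul_re] at ha hb
      have a1 : 1 ≤ |(a : ℝ) - b| := by
        exact_mod_cast Int.one_le_abs (z := a - b) (sub_ne_zero.2 (by omega))
      have a2 := norm_le_abs_re_add_abs_im z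
      have a3 := abs_sub (c * z.re + a * -z.im) (c * z.re + b * -z.im)
      have a4 := abs_sub (c * z.re + a * -z.im) (a * -z.im)
      have a5 : (a : ℝ) ≤ c := by exact_mod_cast ha.1.le
      rw [show _ - _ = -((a - b) * z.im) by ring, abs_neg, abs_mul] at a3
      rw [add_sub_cancel_right, abs_mul, abs_mul, abs_neg, Nat.abs_cast, Nat.abs_cast] at a4
      have a6 := le_mul_of_one_le_left (abs_nonneg z.im) a1
      have a7 := mul_le_mul_of_nonneg_right a5 (abs_nonneg z.im)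
      have a8 := le_mul_of_one_le_left (show 0 ≤ |z.re| - |z.im| by linarith [norm_nonneg z]) h0
      linarith [norm_nonneg z]
  have h2 := (card_biUnion_le_card_mul (B.toFinset ×ˢ B.toFinset) _ _ fun x _ => h1 (x.1 - x.2)).trans
    (show _ ≤ N * N by simpa using Nat.mul_le_mul (B.toFinset_card_le.trans hN) (B.toFinset_card_le.trans hN))
  have h3 := fun b (hb : b ∈ range c) (hb' : b ∉ (B.toFinset ×ˢ B.toFinset).biUnion fun x =>
      (range c).filter fun b : ℕ => 6 * |((c + b * I) * (x.1 - x.2)).re| < ‖x.1 - x.2‖) =>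
    rank_good (κ := 12 * c) (L := L) hN hB (ω := M * (c + b * I)) fun v hv v' hv' e => by
      obtain ⟨a1, a2⟩ := h v hv v' hv' e
      have a3 : ‖v - v'‖ ≤ 6 * |((c + b * I) * (v - v')).re| := not_lt.1 fun e =>
        hb' (mem_biUnion.2 ⟨(v, v'), by simp [*], mem_filter.2 ⟨hb, e⟩⟩)
      have a4 : ‖(c + b * I : ℂ)‖ ≤ 2 * c := by
        grw [norm_add_le]; simp [two_mul, (mem_range.1 hb).le]
      have a5 : 1 ≤ ‖(c + b * I : ℂ)‖ := h0.trans (by simpa using re_le_norm (c + b * I))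
      rw [mul_assoc, hre, abs_mul, norm_mul, norm_mul, Nat.abs_cast, Complex.norm_natCast]
      refine ⟨?_, by nlinarith, lt_of_le_of_lt ?_ a2⟩
      · grw [a4, a3]; push_cast; exact le_of_eq (by ring)
      · grw [a4, hc]; push_cast; exact le_of_eq (by ring)
  rw [← hc]
  refine ⟨fun a => by_contra fun e => a.not_ge (le_trans (card_le_card fun b hb => by_contra fun hb' =>
    e ((h3 b (mem_filter.1 hb).1 hb').1 (mem_filter.1 hb).2)) h2), fun a => ?_⟩
  have := (card_le_card (show range c ⊆ _ ∪ _ from fun b hb => mem_union.2 (or_iff_not_imp_left.2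
    fun hb' => mem_filter.2 ⟨hb, (h3 b hb hb').2 a⟩))).trans (card_union_le _ _)
  rw [card_range] at this
  linarith

end Vale.Agent.P337
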