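import Vale.Agent.P337.Nm
import Vale.Agent.P337.Rank

/-! Root separation and the integer test. -/

namespace Vale.Agent.P337

open Finset Classical MvPolynomial ComplexConjugate

set_option linter.unusedSectionVars false

theorem mahler_le {p : Polynomial ℂ} {c : ℝ} (hc : 1 ≤ c) (h : ∀ z, ‖z‖ = 1 → ‖p.eval z‖ ≤ c) :
    p.mahlerMeasure ≤ c := (Real.le_exp_log _).trans <| Real.exp_le_exp.2 (show _ ≤ Real.log c by
  rw [← Polynomial.logMahlerMeasure_eq_log_MahlerMeasure]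
  refine Real.circleAverage_mono_on_of_le_circle p.intervalIntegrable_mahlerMeasure fun z hz => ?_
  obtain h' | h' := eq_zero_or_norm_pos (p.eval z)
  · simpa [h'] using Real.log_nonneg hc
  · exact Real.log_le_log h' (h z (by simpa using hz))) |>.trans_eq (Real.exp_log (by linarith))

theorem mahler {p : Polynomial ℂ} {c : ℝ} (hc : 1 ≤ c) (h : ∀ z, ‖z‖ = 1 → ‖p.eval z‖ ≤ c) :
    ‖p.leadingCoeff‖ ≤ c ∧ ∀ z ∈ p.roots, ‖p.leadingCoeff‖ * ‖z‖ ≤ c := by
  have := mahler_le hc h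
  refine ⟨p.leadingCoeff_le_mahlerMeasure.trans this, fun z hz => le_trans ?_ this⟩
  obtain ⟨s, hs⟩ := Multiset.exists_cons_of_mem hz
  rw [p.mahlerMeasure_eq_leadingCoeff_mul_prod_roots, hs, Multiset.map_cons, Multiset.prod_cons]
  gcongr
  exact (le_max_right 1 _).trans (le_mul_of_one_le_right (by positivity) (by
    simpa using Multiset.prod_map_le_prod_map₀ (s := s) (fun _ => (1 : ℝ)) (fun a => max 1 ‖a‖)
      (by simp) (by simp)))

theorem int_root {p : Polynomial ℤ} {c : ℝ} (hc : 1 ≤ c) (hp : p ≠ 0)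
    (h : ∀ z : ℂ, ‖z‖ = 1 → ‖p.eval₂ (Int.castRingHom ℂ) z‖ ≤ c) {z : ℂ}
    (hz : p.eval₂ (Int.castRingHom ℂ) z = 0) : ‖z‖ ≤ c := by
  have hi := (Int.castRingHom ℂ).injective_int
  refine le_trans (le_mul_of_one_le_left (norm_nonneg _) ?_) ((mahler (p := p.map (Int.castRingHom ℂ))
    hc (by simpa [Polynomial.eval_map])).2 z (by
      simpa [Polynomial.map_ne_zero_iff hi, hp, Polynomial.eval_map]))
  rw [Polynomial.leadingCoeff_map_of_injective hi, eq_intCast, Complex.norm_intCast]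
  exact_mod_cast Int.one_le_abs (Polynomial.leadingCoeff_ne_zero.2 hp)

theorem norm_mprod {ι : Type} (s : Multiset ι) (f : ι → ℂ) :
    ‖(s.map f).prod‖ = (s.map fun x => ‖f x‖).prod := by
  induction s using Multiset.induction_on <;> simp [*]

theorem norm_mprod_le {ι : Type} {s : Multiset ι} {f : ι → ℂ} {c : ℝ} {N : ℕ} (hN : s.card ≤ N)
    (hc : 1 ≤ c) (h : ∀ x ∈ s, ‖f x‖ ≤ c) : ‖(s.map f).prod‖ ≤ c ^ N := by
  refine (norm_mprod s f).trans_le ((Multiset.prod_map_le_prod_map₀ _ (fun _ => c) (by simp) h).trans ?_)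
  simpa using pow_le_pow_right₀ hc hN

variable {σ R : Type} [CommRing R] [Fintype σ] [DecidableEq σ] {d : σ → ℕ} {N K L k : ℕ}
  {h : σ → MvPolynomial σ ℤ} {S : Multiset (σ → ℂ)} {ω ω' u : MvPolynomial σ ℤ}

theorem Sol.nm (H : Sol d (fun i => map (Int.castRingHom ℂ) (h i)) S) (hN : S.card ≤ N) (φ : R →+* ℂ)
    {ψ : MvPolynomial σ R} {e : ℕ} (he : Le e ψ) (hK : N * e ≤ K) :
    φ (Nm N K d (fun i => map (Int.castRingHom R) (h i)) ψ) =
      ee N 0 * (S.map fun x => eval₂Hom φ x ψ).prod := by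
  simp only [map_Nm, MvPolynomial.map_map, RingHom.eq_intCast' (φ.comp _), H.2.2 N K e _ hN (he.map φ) hK, eval_map,
    coe_eval₂Hom]

theorem Sol.ex (H : Sol d (fun i => map (Int.castRingHom ℂ) (h i)) S) (hN : S.card ≤ N)
    (ψ : MvPolynomial σ R) : ∃ r, ∀ φ : R →+* ℂ, φ r = ee N 0 * (S.map fun x => eval₂Hom φ x ψ).prod :=
  ⟨_, fun φ => H.nm hN φ (le_iff.2 le_rfl) le_rfl⟩

theorem eval₂Hom_map (φ : R →+* ℂ) (x : σ → ℂ) (u : MvPolynomial σ ℤ) :
    eval₂Hom φ x (map (Int.castRingHom R) u) = aeval x u := by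
  simp [RingHom.eq_intCast' (φ.comp _), aeval_def]

theorem Sol.conj (H : Sol d (fun i => map (Int.castRingHom ℂ) (h i)) S) (u : MvPolynomial σ ℤ) :
    (S.map (aeval · u)).map conj = S.map (aeval · u) := by
  obtain ⟨P, hP⟩ := H.ex le_rfl (C Polynomial.X - map (Int.castRingHom (Polynomial ℤ)) u)
  refine (Polynomial.roots_multiset_prod_X_sub_C _).symm.trans ((congrArg _ (Polynomial.funext fun t =>
    mul_left_cancel₀ (Nat.cast_ne_zero.2 (ee_pos S.card 0).ne') ?_)).trans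
    (Polynomial.roots_multiset_prod_X_sub_C _))
  have h1 := hP (Polynomial.eval₂RingHom (Int.castRingHom ℂ) t)
  have h2 := congr(conj $(hP (Polynomial.eval₂RingHom (Int.castRingHom ℂ) (conj t))))
  rw [← RingHom.comp_apply, show (conj).comp _ = Polynomial.eval₂RingHom (Int.castRingHom ℂ) t by
    ext <;> simp, h1] at h2
  simp only [map_sub, eval₂Hom_map] at h2
  simpa [Polynomial.eval_multiset_prod, map_multiset_prod, -map_aeval] using h2.symm

theorem Sol.sep (H : Sol d (fun i => map (Int.castRingHom ℂ) (h i)) S) (hN : S.card ≤ N) {U : ℝ}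
    (h0 : 0 ≤ U) (hU : ∀ x ∈ S, ‖aeval x u‖ ≤ U) {x y : σ → ℂ} (hx : x ∈ S) (hy : y ∈ S)
    (hxy : aeval x u ≠ aeval y u) :
    1 ≤ ee N 0 * (ee N 0 * (1 + 2 * U) ^ N) ^ N * ‖aeval x u - aeval y u‖ := by
  obtain ⟨P, hP⟩ := H.ex hN (1 - C (C Polynomial.X) * (C (map (Int.castRingHom (Polynomial ℤ)) u) -
    map (Int.castRingHom _) u))
  obtain ⟨Q, hQ⟩ := H.ex hN P
  have h1 : ∀ t, Q.eval₂ (Int.castRingHom ℂ) t = ee N 0 * (S.map fun x => ee N 0 *
      (S.map fun y => 1 - t * (aeval x u - aeval y u)).prod).prod := fun t => by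
    simpa only [hP, map_sub, map_mul, map_one, eval₂Hom_map, eval₂Hom_C, Polynomial.coe_eval₂RingHom,
      Polynomial.eval₂_X] using hQ (Polynomial.eval₂RingHom (Int.castRingHom ℂ) t)
  have h2 : (1 : ℝ) ≤ ee N 0 := Nat.one_le_cast.2 (ee_pos N 0)
  have h3 : 1 ≤ ee N 0 * (1 + 2 * U) ^ N := one_le_mul_of_one_le_of_one_le h2 (one_le_pow₀ (by linarith))
  have h4 := sub_ne_zero.2 hxy
  rw [← inv_le_iff_one_le_mul₀ (norm_pos_iff.2 h4), ← norm_inv]
  refine int_root (p := Q) (one_le_mul_of_one_le_of_one_le h2 (one_le_pow₀ h3)) (fun e => ?_)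
    (fun z hz => ?_) ?_
  · simpa [e, (ee_pos N 0).ne'] using h1 0
  · rw [h1, norm_mul, Complex.norm_natCast]
    gcongr
    refine norm_mprod_le hN h3 fun x hx => ?_
    rw [norm_mul, Complex.norm_natCast]
    gcongr
    refine norm_mprod_le hN (by linarith) fun y hy => ?_
    grw [norm_sub_le, norm_mul, norm_sub_le, hU x hx, hU y hy, hz, norm_one, one_mul, two_mul]
  · rw [h1, Multiset.prod_eq_zero (Multiset.mem_map.2 ⟨x, hx, _⟩), mul_zero]
    rw [Multiset.prod_eq_zero (Multiset.mem_map.2 ⟨y, hy, by simp [h4]⟩), mul_zero]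

theorem Le.Bf {z : MvPolynomial σ R} {e : ℕ} (hz : Le e z) (s : ℕ) : Le (L * k * e : ℕ) (Bf L k s z) := by
  have : ∀ z : MvPolynomial σ R, Le e z → Le (L * k * e : ℕ) ((∏ j ∈ range L, (z + 2 ^ j)) ^ k) :=
    fun z hz => ((Le.prod (e := fun _ => e) fun j _ => hz.add (((Le.C 2).pow j).mono (by simp))).pow k).mono
      (by simp [mul_assoc, mul_left_comm])
  exact (by simpa using (Le.C (s : R)).mul (this z hz) : Le _ _).add (this _ hz.neg)

theorem Le.mprod {ι : Type} {s : Multiset ι} {f : ι → MvPolynomial σ R} {e : ℤ} (h : ∀ i, Le e (f i)) :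
    Le (s.card * e) (s.map f).prod := by
  induction s using Multiset.induction_on with
  | empty => simpa using! Le.C 1
  | cons a s ih => simpa [add_mul, add_comm] using (h a).mul ih

/-- The inner norm. -/
noncomputable def In (N K L k : ℕ) (d : σ → ℕ) (h : σ → MvPolynomial σ ℤ) (u : MvPolynomial σ ℤ)
    (s : ℕ) (ω : MvPolynomial σ ℤ) : MvPolynomial σ ℤ := Nm N K d (fun i => map (Int.castRingHom _) (h i))
  (Bf L k s (C ω * (C u - map (Int.castRingHom _) u)))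

/-- The integer whose sign is tested. -/
noncomputable def Xv (N K L k : ℕ) (d : σ → ℕ) (h : σ → MvPolynomial σ ℤ) (u ω ω' : MvPolynomial σ ℤ) :
    ℤ := Nm N K d h (In N K L k d h u 1 ω * In N K L k d h u 1 ω') ^ 2 -
  (4 ^ N * Nm N K d h (In N K L k d h u 2 ω * In N K L k d h u 1 ω' -
    In N K L k d h u 2 ω' * In N K L k d h u 1 ω)) ^ 2

theorem le_lin {ω' u' : R} (hu : Le 1 u) : Le (1 : ℕ) (C ω' * (C u' - map (Int.castRingHom R) u)) :=
  ((Le.C _).mul (((Le.C _).mono zero_le_one).sub (hu.map _))).mono (by simp)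

variable (H : Sol d (fun i => map (Int.castRingHom ℂ) (h i)) S) (hN : S.card ≤ N) (hu : Le 1 u)
  (hK : N * (L * k) + N * (4 * N * L * k) ≤ K)
include H hN hu hK

theorem In_spec (s : ℕ) (ω : MvPolynomial σ ℤ) (x : σ → ℂ) : aeval x (In N K L k d h u s ω) =
    ee N 0 * Pr L k s (S.map (aeval · u)) (aeval x ω) (aeval x u) := by
  simpa only [map_Bf, map_sub, map_mul, eval₂Hom_map, eval₂Hom_C, Pr, Multiset.map_map]
    using! H.nm hN (K := K) (eval₂Hom (Int.castRingHom ℂ) x) ((le_lin hu).Bf (L := L) (k := k) s)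
      (by rw [mul_one]; omega)

theorem In_le (s : ℕ) (hω : Le 1 ω) : Le (2 * N * L * k : ℕ) (In N K L k d h u s ω) := by
  refine .of_map ?_ (Int.castRingHom ℂ).injective_int
  rw [MvPolynomial.funext (p := map _ _) (q := C (ee N 0 : ℂ) * (S.map fun y => Bf L k s
    (map (Int.castRingHom _) ω * (map (Int.castRingHom _) u - C (aeval y u)))).prod) fun x => by
      simpa [eval_map, map_Bf, Pr, aeval_def, map_multiset_prod] using In_spec H hN hu hK s ω x]
  refine ((Le.C _).mul (Le.mprod fun y => Le.Bf (e := 2) ((hω.map _).mul ((hu.map _).sub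
    ((Le.C _).mono zero_le_one))) s)).mono ?_
  rw [zero_add]
  exact_mod_cast (Nat.mul_le_mul_right (L * k * 2) hN).trans_eq (by ring)

theorem Xv_le (hω : Le 1 ω) (hω' : Le 1 ω') (s : ℕ) :
    Le (4 * N * L * k : ℕ) (In N K L k d h u s ω * In N K L k d h u 1 ω') :=
  ((In_le H hN hu hK s hω).mul (In_le H hN hu hK 1 hω')).mono (by push_cast; linarith)

theorem Xv_eq (hω : Le 1 ω) (hω' : Le 1 ω') : (Xv N K L k d h u ω ω' : ℝ) = ‖ee N 0 * (S.map fun x =>
    aeval x (In N K L k d h u 1 ω * In N K L k d h u 1 ω')).prod‖ ^ 2 - (4 ^ N * ‖ee N 0 * (S.map fun x =>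
    aeval x (In N K L k d h u 2 ω * In N K L k d h u 1 ω' -
      In N K L k d h u 2 ω' * In N K L k d h u 1 ω)).prod‖) ^ 2 := by
  have h1 := H.nm (K := K) hN (Int.castRingHom ℂ) (Xv_le H hN hu hK hω hω' 1) (by omega)
  have h2 := H.nm (K := K) hN (Int.castRingHom ℂ) ((Xv_le H hN hu hK hω hω' 2).sub
    (Xv_le H hN hu hK hω' hω 2)) (by omega)
  simp only [← RingHom.eq_intCast' (.id ℤ), map_id, eq_intCast] at h1 h2
  simp only [aeval_eq_eval₂Hom, algebraMap_int_eq, ← h1, ← h2]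
  simp [Xv, mul_pow]

theorem Xv_pos (hω : Le 1 ω) (hω' : Le 1 ω') {w : ℂ} (hw : ∀ x ∈ S, aeval x ω = w ∧ aeval x ω' = conj w ∨
    aeval x ω = conj w ∧ aeval x ω' = w) : 0 < Xv N K L k d h u ω ω' ↔ Ts L k N (S.map (aeval · u)) w := by
  have := ee_pos N 0
  rw [← Int.cast_pos (R := ℝ), Xv_eq H hN hu hK hω hω', sub_pos, sq_lt_sq₀ (by positivity) (by positivity),
    norm_mul, norm_mul, norm_mprod, norm_mprod, Ts, Multiset.map_map, Multiset.map_map,
    iff_comm, ← mul_lt_mul_iff_right₀ (show (0 : ℝ) < ‖(ee N 0 : ℂ)‖ * (S.map fun _ =>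
      ‖(ee N 0 : ℂ) ^ 2‖).prod by simp; positivity), mul_left_comm (_ * _), mul_assoc, mul_assoc,
      ← Multiset.prod_map_mul, ← Multiset.prod_map_mul]
  congr! 5 with x hx x hx <;> obtain ⟨a, b⟩ | ⟨a, b⟩ := hw x hx <;>
    simp only [map_mul, map_sub, In_spec H hN hu hK, a, b, Function.comp, ← norm_mul]
  · ring_nf
  · rw [norm_sub_rev]; ring_nf
  · ring_nf
  · ring_nf

theorem Xv_abs (hω : Le 1 ω) (hω' : Le 1 ω') (hw : ∀ x ∈ S, ∀ y ∈ S,
    ‖aeval x ω * (aeval x u - aeval y u)‖ ≤ 2 ^ L ∧ ‖aeval x ω' * (aeval x u - aeval y u)‖ ≤ 2 ^ L) :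
    |Xv N K L k d h u ω ω'| ≤
      ((4 ^ N * (ee N 0 * (2 * (ee N 0 * (3 * ((2 * 2 ^ L) ^ L) ^ k) ^ N) ^ 2) ^ N)) ^ 2 : ℕ) := by
  have h1 : ∀ z : ℂ, ‖z‖ ≤ 2 ^ L → ‖(∏ j ∈ range L, (z + 2 ^ j)) ^ k‖ ≤ ((2 * 2 ^ L) ^ L) ^ k :=
    fun z hz => by
      rw [norm_pow, norm_prod]
      gcongr
      refine (prod_le_prod (by simp) fun j hj => show _ ≤ 2 * (2 : ℝ) ^ L from ?_).trans (by simp)
      grw [norm_add_le, hz, two_mul, norm_pow, Complex.norm_ofNat, (mem_range.1 hj).le]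
      norm_num
  have h0 : (1 : ℝ) ≤ 3 * ((2 * 2 ^ L) ^ L) ^ k := by exact_mod_cast Nat.succ_le_of_lt (by positivity)
  obtain ⟨c, hc⟩ : ∃ c : ℝ, c = ee N 0 * (3 * ((2 * 2 ^ L) ^ L) ^ k) ^ N := ⟨_, rfl⟩
  have h2 : ∀ s ≤ 2, ∀ ω : MvPolynomial σ ℤ, ∀ x, (∀ y ∈ S, ‖aeval x ω * (aeval x u - aeval y u)‖ ≤ 2 ^ L) →
      ‖aeval x (In N K L k d h u s ω)‖ ≤ c := fun s hs ω x h => by
    rw [In_spec H hN hu hK, norm_mul, Complex.norm_natCast, hc, Pr, Multiset.map_map]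
    gcongr
    refine norm_mprod_le hN h0 fun y hy => ?_
    grw [Function.comp, Bf, norm_add_le, norm_mul, h1 _ (h y hy), h1 _ ((norm_neg _).trans_le (h y hy)),
      Complex.norm_natCast, hs]
    exact le_of_eq (by push_cast; ring)
  have h3 : 1 ≤ c := hc ▸ one_le_mul_of_one_le_of_one_le (Nat.one_le_cast.2 (ee_pos N 0)) (one_le_pow₀ h0)
  have h4 : ∀ s ≤ 2, ∀ x ∈ S, ‖aeval x (In N K L k d h u s ω * In N K L k d h u 1 ω')‖ ≤ c ^ 2 ∧
      ‖aeval x (In N K L k d h u s ω' * In N K L k d h u 1 ω)‖ ≤ c ^ 2 := fun s hs x hx => by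
    have a := fun s hs => h2 s hs ω x fun y hy => (hw x hx y hy).1
    have b := fun s hs => h2 s hs ω' x fun y hy => (hw x hx y hy).2
    constructor <;> grw [map_mul, norm_mul, a, b, sq] <;> omega
  have h5 := norm_mprod_le hN (c := 2 * c ^ 2) (by nlinarith) fun x hx =>
    (h4 1 one_le_two x hx).1.trans (by nlinarith)
  have h6 := norm_mprod_le hN (c := 2 * c ^ 2) (by nlinarith) fun x hx => (congrArg _ (map_sub (aeval (R := ℤ) x) _ _)).trans_le
    ((norm_sub_le_of_le (h4 2 le_rfl x hx).1 (h4 2 le_rfl x hx).2).trans_eq (two_mul _).symm)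
  rw [← Int.cast_le (R := ℝ), Int.cast_abs, Xv_eq H hN hu hK hω hω']
  push_cast
  rw [← hc, norm_mul, norm_mul, Complex.norm_natCast]
  refine abs_sub_le_of_nonneg_of_le (by positivity) ?_ (by positivity) (by gcongr)
  grw [h5, ← one_le_pow₀ (by norm_num : (1 : ℝ) ≤ 4), one_mul]

/-- The directions. -/
noncomputable def om (M c b : ℕ) (s : ℤ) (i : σ) : MvPolynomial σ ℤ :=
  C (2 ^ M) * (C (c : ℤ) + C (s * min b c) * X i)

omit H hN hu hK in
theorem le_om (M c b : ℕ) (s : ℤ) (i : σ) : Le 1 (om M c b s i) :=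
  ((Le.C _).mul (((Le.C _).mono zero_le_one).add (((Le.C _).mul (.X _)).mono (by simp)))).mono (by simp)

theorem real_math {M F c : ℕ} {i : σ} (hc : c = 2 * N * N + 1)
    (hk : k = 4 * (12 * c) * (2 * N * N + 5 * N + 4)) (hb : ∀ x ∈ S, x i ^ 2 = -1 ∧ ‖aeval x u‖ ≤ F)
    (hM : ee N 0 * (ee N 0 * (1 + 2 * F) ^ N) ^ N ≤ 2 ^ M) (hL : 2 ^ M * (2 * c) * (2 * F) + 1 ≤ 2 ^ L) :
    (∀ b, ∀ x ∈ S, ∀ y ∈ S, ‖aeval x (om M c b 1 i) * (aeval x u - aeval y u)‖ ≤ 2 ^ L ∧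
      ‖aeval x (om M c b (-1) i) * (aeval x u - aeval y u)‖ ≤ 2 ^ L) ∧ (N * N < ((range c).filter fun b =>
      0 < Xv N K L k d h u (om M c b 1 i) (om M c b (-1) i)).card ↔ ∃ x ∈ S, (aeval x u).im = 0) := by
  have b2 : ∀ x ∈ S, ∀ y ∈ S,
      (2 ^ M : ℕ) * (2 * c) * ‖aeval x u - aeval y u‖ < (2 : ℝ) ^ L := fun x hx y hy => by
    grw [norm_sub_le, (hb x hx).2, (hb y hy).2, ← two_mul]
    exact_mod_cast hL
  have b3 : ∀ x ∈ S, x i = .I ∨ x i = -.I := fun x hx => sq_eq_sq_iff_eq_or_eq_neg.1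
    ((hb x hx).1.trans Complex.I_sq.symm)
  refine ⟨fun b x hx y hy => ?_, ?_⟩
  · have a : ‖x i‖ = 1 := by rcases b3 x hx with h | h <;> simp [h]
    have : |min (b : ℝ) c| ≤ c := by rw [abs_of_nonneg] <;> simp
    constructor <;> refine le_trans ?_ (b2 x hx y hy).le <;> simp only [om, map_mul, map_add, aeval_C,
      aeval_X, norm_mul] <;> grw [norm_add_le] <;> gcongr <;> simp [a, this, two_mul]
  rw [filter_congr (s := range c) fun b hb => Xv_pos H hN hu hK (le_om M c b 1 i) (le_om M c b (-1) i)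
    (w := (2 ^ M : ℕ) * (c + b * Complex.I)) fun x hx => by
      rcases b3 x hx with h | h <;> simp [om, h, (mem_range.1 hb).le, map_ofNat], hk, hc,
    rank (by simpa using hN) (H.conj _)]
  · simp
  · simp only [Multiset.forall_mem_map_iff]
    refine fun x hx y hy e => ⟨(H.sep hN F.cast_nonneg (fun z hz => (hb z hz).2) hx hy e).trans ?_,
      by simpa [hc] using b2 x hx y hy⟩
    gcongr
    exact_mod_cast hM

end Vale.Agent.P337
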