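import Vale.Agent.P337.Ev
import Vale.Agent.P337.Sep

/-! Deciding whether a system of Pham type has a real solution. -/

namespace Vale.Agent.P337

open Vale.Agent.PT Finset Classical MvPolynomial ComplexConjugate

variable {α β : Type} [TEnc α] [TEnc β] {V : α → Prop} {m n t F G N K L k D : α → ℕ}

/-- Doubly exponentially bounded functions. -/
def Db (F : α → ℕ) : Prop := ∃ E, PTime E ∧ ∀ a, F a ≤ 2 ^ E a

theorem Db.of (h : PTime F) : Db F := ⟨F, h, fun _ => Nat.lt_two_pow_self.le⟩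

theorem Db.comp (h : Db F) {g : β → α} (hg : PTime g) : Db fun b => F (g b) :=
  let ⟨_, h1, h2⟩ := h; ⟨_, h1.comp hg, fun _ => h2 _⟩

theorem Db.mul (h : Db F) (h' : Db G) : Db fun a => F a * G a :=
  let ⟨_, h1, h2⟩ := h; let ⟨_, h3, h4⟩ := h'
  ⟨_, h1.add h3, fun a => pow_add 2 _ _ ▸ Nat.mul_le_mul (h2 a) (h4 a)⟩

theorem Db.add (h : Db F) (h' : Db G) : Db fun a => F a + G a :=
  let ⟨E, h1, h2⟩ := h; let ⟨E', h3, h4⟩ := h'
  ⟨_, (h1.add h3).add (.const 1), fun a => by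
    have := (h2 a).trans (Nat.pow_le_pow_right two_pos (Nat.le_add_right _ (E' a)))
    have := (h4 a).trans (Nat.pow_le_pow_right two_pos (Nat.le_add_left _ (E a)))
    rw [pow_succ]; dsimp only; omega⟩

theorem Db.pow (h : Db F) (hN : PTime N) : Db fun a => F a ^ N a :=
  let ⟨_, h1, h2⟩ := h; ⟨_, h1.mul hN, fun a => pow_mul 2 _ _ ▸ Nat.pow_le_pow_left (h2 a) _⟩

theorem Db.ee (hN : PTime N) : Db fun a => ee (N a) 0 :=
  let ⟨E, h1, h2⟩ := ((Db.of hN).mul ((Db.of hN).pow hN)).pow hN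
  ⟨E, h1, fun a => ((prod_le_pow_card _ _ _ fun _ hi => Nat.mul_le_mul (mem_range.1 hi)
    ((prod_le_pow_card _ _ _ fun _ hj => mem_range.1 hj).trans_eq (by rw [card_range]))).trans_eq
    (by rw [card_range])).trans (h2 a)⟩

/-- The separating linear forms. -/
noncomputable def uc (n c : ℕ) [NeZero n] : MvPolynomial (Fin n) ℤ :=
  ∑ i : Fin n, C (if i = 0 then 0 else (c : ℤ) ^ (i : ℕ)) * X i

theorem all_uc {n N : ℕ} [NeZero n] {S : Multiset (Fin n → ℂ)} (hN : S.card ≤ N) :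
    (∀ c < N * n + 1, ∃ x ∈ S, (aeval x (uc n c)).im = 0) ↔ ∃ x ∈ S, ∀ i ≠ 0, (x i).im = 0 := by
  obtain ⟨p, hp⟩ : ∃ p : (Fin n → ℂ) → Polynomial ℝ, ∀ x, p x =
    ∑ i : Fin n, .monomial (i : ℕ) (if i = 0 then 0 else (x i).im) := ⟨_, fun _ => rfl⟩
  have h0 : ∀ x (c : ℕ), (aeval x (uc n c)).im = (p x).eval (c : ℝ) := fun x c => by
    simp only [uc, hp, Polynomial.eval_finsetSum, map_sum, Complex.im_sum]
    refine sum_congr rfl fun i _ => ?_
    by_cases i = 0 <;> simp [*, mul_comm, ← Complex.ofReal_natCast, ← Complex.ofReal_pow]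
  simp only [h0]
  refine ⟨fun h => by_contra fun h' => ?_, fun ⟨x, h1, h2⟩ c _ => ⟨x, h1, by
    rw [hp, sum_eq_zero fun i _ => by by_cases i = 0 <;> simp [*], Polynomial.eval_zero]⟩⟩
  refine Multiset.prod_ne_zero (s := S.map p) (fun e => h' ?_)
    (Polynomial.eq_zero_of_natDegree_lt_card_of_eval_eq_zero _ (ι := Fin (N * n + 1))
      (f := fun c => ((c : ℕ) : ℝ)) (Nat.cast_injective.comp Fin.val_injective) (fun c => ?_) ?_)
  · obtain ⟨x, hx, e⟩ := Multiset.mem_map.1 e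
    exact ⟨x, hx, fun i hi => by
      simpa [hp, Polynomial.coeff_monomial, Fin.val_inj, hi] using congr(($e).coeff i)⟩
  · obtain ⟨x, h1, h2⟩ := h c c.2
    rw [Polynomial.eval_multiset_prod, Multiset.map_map]
    exact Multiset.prod_eq_zero (Multiset.mem_map.2 ⟨x, h1, h2⟩)
  · refine (Polynomial.natDegree_multiset_prod_le _).trans_lt ((Multiset.sum_le_card_nsmul _ n (by
      simp only [Multiset.map_map, Multiset.forall_mem_map_iff, Function.comp, hp]
      exact fun x _ => Polynomial.natDegree_sum_le_of_forall_le _ _ fun i _ =>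
        (Polynomial.natDegree_monomial_le _).trans i.2.le)).trans_lt ?_)
    simpa [Nat.lt_succ_iff] using Nat.mul_le_mul_right _ hN

/-- Families that can be evaluated modulo all large primes. -/
def Pz (t n : α → ℕ) (q : ∀ a, ℕ → MvPolynomial (Fin (n a)) ℤ) : Prop :=
  ∀ (β : Type) [TEnc β] (g : β → α) (V : β → Prop) (m : β → ℕ), PTime g → PTime m →
    (∀ b, V b → t (g b) < m b) →
    Pv (fun x : β × ℕ => V x.1) (fun x => m x.1) (fun x => n (g x.1)) fun x => q (g x.1) x.2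

theorem Pz.comp {q : ∀ a, ℕ → MvPolynomial (Fin (n a)) ℤ} (h : Pz t n q) {g : β → α} (hg : PTime g) :
    Pz (fun b => t (g b)) (fun b => n (g b)) fun b => q (g b) :=
  fun γ _ _ V m hg' => h γ _ V m (hg.comp hg')

theorem Pv.Bf {q : ∀ a, MvPolynomial (Fin (n a)) ℤ} (hm : PTime m) (hL : PTime L) (hk : PTime k)
    (h : Pv V m n q) (s : ℕ) : Pv V m n fun a => Bf (L a) (k a) s (q a) := by
  have : ∀ {q}, Pv V m n q → Pv V m n fun a => (∏ j ∈ range (L a), (q a + 2 ^ j)) ^ k a := fun h =>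
    .pow (.prod hL (.add (h.comp .fst_id) (.pow (Pv.C (.of (hm.comp .fst_id) (.const 2))) .snd_id))) hk
  exact ((Pv.C (.of hm (.const (s : ℤ)))).mul (this h)).add (this h.neg)

attribute [local irreducible] Xv In om Nm Bf ee PTime PB Ar Ch

variable [∀ a, NeZero (n a)]

theorem Pz.om {M c b : α → ℕ} (hn : PTime n) (hM : PTime M) (hc : PTime c) (hb : PTime b) (s : ℤ) :
    Pz t n fun a _ => om (M a) (c a) (b a) s 0 := fun γ _ g V m hg hm _ => by
  have h0 : Pv V m (fun a => n (g a)) fun a => MvPolynomial.X 0 := by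
    simpa using Pv.X (V := V) (m := m) (hn.comp hg) (.const 0)
  have : Pv V m (fun a => n (g a)) fun a => P337.om (M (g a)) (c (g a)) (b (g a)) s 0 := by
    unfold P337.om
    exact .mul (.C ((Ar.of hm (.const 2)).pow (hM.comp hg))) (.add (.C (.of hm (by fun_prop)))
      (.mul (.C (.of hm (by fun_prop))) h0))
  exact this.comp .fst_id

variable {d : ∀ a, Fin (n a) → ℕ} {h : ∀ a, Fin (n a) → MvPolynomial (Fin (n a)) ℤ}
  {u ω ω' : ∀ a, MvPolynomial (Fin (n a)) ℤ} (hn : PTime n) (hn' : PB n)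
  (hd : PTime fun x : α × ℕ => d x.1 (.ofNat _ x.2)) (H : ∀ a, Ph (d a) (h a)) (hD : ∀ a i, d a i ≤ D a)
  (hN : PTime N) (hN' : ∀ a, ∏ i, d a i ≤ N a) (hu' : ∀ a, Le 1 (u a))
include hn hn' hd H hD hN hN' hu'

section
variable (hm : PTime m) (hK : PTime K) (hL : PTime L) (hk : PTime k)
  (hh : Pv (fun x : α × ℕ => V x.1) (fun x => m x.1) (fun x => n x.1) fun x => h x.1 (.ofNat _ x.2))
  (hu : Pv V m n u) (hK' : ∀ a, N a * (L a * k a) + N a * (4 * N a * L a * k a) ≤ K a)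
  (hV : ∀ a, V a → (n a + 1) * (D a * (K a + 1)) + K a + N a * N a + N a + D a + 2 < m a)
include hm hK hL hk hh hu hK' hV

omit hN' in
theorem Pv.In (hω : Pv V m n ω) (s : ℕ) :
    Pv V m n fun a => In (N a) (K a) (L a) (k a) (d a) (h a) (u a) s (ω a) := fun β _ g x hg hx => by
  have a1 := Pv.Bf (hm.comp hg) (hL.comp hg) (hk.comp hg) ((Pv.C (hω β g x hg hx)).mul
    ((Pv.C (hu β g x hg hx)).sub (hu.comp hg))) s
  have := Ar.nm (n := fun b => n (g b)) (d := fun b => d (g b)) (h := fun b => h (g b))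
    (e := fun b => L (g b) * k (g b) * 1) (hm.comp hg) (hn.comp hg)
    (hn'.comp hg) (hd.comp (f := fun x : β × ℕ => (g x.1, x.2)) (by fun_prop))
    (hh.comp (g := fun x : β × ℕ => (g x.1, x.2)) (by fun_prop)) (fun _ => H _) (fun _ => hD _)
    (hN.comp hg) (hK.comp hg) a1 (fun b => ⟨Le.Bf (((Le.C _).mul
        (((Le.C _).mono zero_le_one).sub (hu' _))).mono (by simp)) s, by
      have := hK' (g b); rw [mul_one]; omega⟩) fun b => hV _
  convert this using 2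
  simp [P337.In, map_Nm, map_Bf, MvPolynomial.map_map, RingHom.eq_intCast' (RingHom.comp _ _),
    ← RingHom.eq_intCast' (.id ℤ), MvPolynomial.map_id]

attribute [local irreducible] Pv

theorem Ar.Xv (hω : Pv V m n ω) (hω' : Pv V m n ω') (h1 : ∀ a, Le 1 (ω a)) (h2 : ∀ a, Le 1 (ω' a)) :
    Ar V m fun a => Xv (N a) (K a) (L a) (k a) (d a) (h a) (u a) (ω a) (ω' a) := by
  choose S hS using fun a => ((H a).map (Int.castRingHom ℂ)).sol
  have a1 := Pv.In hn hn' hd H hD hN hu' hm hK hL hk hh hu hK' hV hω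
  have a2 := Pv.In hn hn' hd H hD hN hu' hm hK hL hk hh hu hK' hV hω'
  have a3 := fun a => (hS a).1.trans_le (hN' a)
  have a4 : ∀ a, N a * (4 * N a * L a * k a) ≤ K a := fun a => by have := hK' a; omega
  unfold P337.Xv
  exact ((Ar.nm hm hn hn' hd hh H hD hN hK ((a1 1).mul (a2 1)) (fun a =>
    ⟨Xv_le (hS a) (a3 a) (hu' a) (hK' a) (h1 a) (h2 a) 1, a4 a⟩) hV).pow (.const 2)).sub
    ((((Ar.of hm (.const 4)).pow hN).mul (Ar.nm hm hn hn' hd hh H hD hN hK (((a1 2).mul (a2 1)).sub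
      ((a2 2).mul (a1 1))) (fun a => ⟨(Xv_le (hS a) (a3 a) (hu' a) (hK' a) (h1 a) (h2 a) 2).sub
        (Xv_le (hS a) (a3 a) (hu' a) (hK' a) (h2 a) (h1 a) 2), a4 a⟩) hV)).pow (.const 2))

end

attribute [local irreducible] Pv

variable (hD' : PTime D) (ht : PTime t) (hh : Pz t n fun a i => h a (.ofNat _ i))
include hD' ht hh

theorem Ch.Xv (hu : Pz t n fun a _ => u a) (hω : Pz t n fun a _ => ω a) (hω' : Pz t n fun a _ => ω' a)
    (h1 : ∀ a, Le 1 (ω a)) (h2 : ∀ a, Le 1 (ω' a)) (hL : PTime L) (hk : PTime k) (hK : PTime K)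
    (hK' : ∀ a, N a * (L a * k a) + N a * (4 * N a * L a * k a) ≤ K a) (hb : ∀ a (x y : Fin (n a) → ℂ), (∀ i, x i ^ d a i = aeval x (h a i)) →
      (∀ i, y i ^ d a i = aeval y (h a i)) → ‖aeval x (ω a) * (aeval x (u a) - aeval y (u a))‖ ≤ 2 ^ L a ∧
      ‖aeval x (ω' a) * (aeval x (u a) - aeval y (u a))‖ ≤ 2 ^ L a) : Ch fun a => 0 < Xv (N a)
      (K a) (L a) (k a) (d a) (h a) (u a) (ω a) (ω' a) := by
  choose S hS using fun a => ((H a).map (Int.castRingHom ℂ)).sol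
  have h0 := Db.of (α := α) (.const 2)
  obtain ⟨E, hE, hE'⟩ := (((Db.of (.const 4)).pow hN).mul ((Db.ee hN).mul ((h0.mul (((Db.ee hN).mul
    (((Db.of (.const 3)).mul (((h0.mul (h0.pow hL)).pow hL).pow hk)).pow hN)).pow (.const 2))).pow
    hN))).pow (.const 2)
  obtain ⟨T, hT, hT'⟩ : ∃ T, PTime T ∧ ∀ a, T a = t a + ((n a + 1) * (D a * (K a + 1)) + K a + N a * N a +
    N a + D a + 2) := ⟨_, ht.add (((((((hn.add (.const 1)).mul (hD'.mul (hK.add (.const 1)))).add hK).add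
      (hN.mul hN)).add hN).add hD').add (.const 2)), fun _ => rfl⟩
  have a0 : ∀ x : α × ℕ, T x.1 < x.2 → t x.1 < x.2 := fun x v => by rw [hT'] at v; omega
  have a1 : ∀ {q : ∀ a, MvPolynomial (Fin (n a)) ℤ}, (Pz t n fun a _ => q a) →
      Pv (fun x : α × ℕ => T x.1 < x.2) Prod.snd (fun x => n x.1) fun x => q x.1 := fun h =>
    (h _ _ _ _ .fst_id .snd_id a0).comp (g := fun x => (x, 0)) (by fun_prop)
  have a2 := Ar.Xv (hn.comp .fst_id) (hn'.comp .fst_id) (hd.comp (f := fun x : (α × ℕ) × ℕ => (x.1.1, x.2))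
    (by fun_prop)) (fun _ => H _) (fun _ => hD _) (hN.comp .fst_id) (fun _ => hN' _) (fun _ => hu' _)
    .snd_id (hK.comp .fst_id) (hL.comp .fst_id) (hk.comp .fst_id) (hh _ _ _ _ .fst_id .snd_id a0)
    (a1 hu) (fun _ => hK' _) (fun x v => (Nat.le_add_left _ _).trans_lt ((hT' _).symm.trans_lt v))
    (a1 hω) (a1 hω') (fun _ => h1 _) fun _ => h2 _
  refine Ar.sign hT hE (fun a => ?_) a2
  refine ((Xv_abs (hS a) ((hS a).1.trans_le (hN' a)) (hu' a) (hK' a) (h1 a) (h2 a) fun y hy z hz =>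
    hb a y z ?_ ?_).trans (Int.ofNat_le.2 (hE' a))).trans_eq (Nat.cast_pow 2 _)
  · simpa [(hS a).2.1, eval_map, aeval_def] using hy
  · simpa [(hS a).2.1, eval_map, aeval_def] using hz

theorem Ch.realU (hu : Pz t n fun a _ => u a) (hF : Db F) (hb : ∀ a (x : Fin (n a) → ℂ),
      (∀ i, x i ^ d a i = aeval x (h a i)) → x 0 ^ 2 = -1 ∧ ‖aeval x (u a)‖ ≤ F a) :
    Ch fun a => ∃ x : Fin (n a) → ℂ, (∀ i, x i ^ d a i = aeval x (h a i)) ∧ (aeval x (u a)).im = 0 := by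
  choose S hS using fun a => ((H a).map (Int.castRingHom ℂ)).sol
  have a0 : ∀ a x, x ∈ S a ↔ ∀ i, x i ^ d a i = aeval x (h a i) := fun a x => by
    simp [(hS a).2.1, eval_map, aeval_def]
  have a3 := fun a => (hS a).1.trans_le (hN' a)
  have h2 := Db.of (α := α) (.const 2)
  obtain ⟨M, hM, hM'⟩ := (Db.ee hN).mul (((Db.ee hN).mul (((Db.of (.const 1)).add (h2.mul hF)).pow
    hN)).pow hN)
  obtain ⟨c, hc⟩ : ∃ c : α → ℕ, ∀ a, c a = 2 * N a * N a + 1 := ⟨_, fun _ => rfl⟩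
  have hc' : PTime c := .of_eq (by fun_prop) fun a => (hc a).symm
  obtain ⟨L, hL, hL'⟩ := (((h2.pow hM).mul (h2.mul (.of hc'))).mul (h2.mul hF)).add (.of (.const 1))
  obtain ⟨k, hk⟩ : ∃ k : α → ℕ, ∀ a, k a = 4 * (12 * c a) * (2 * N a * N a + 5 * N a + 4) :=
    ⟨_, fun _ => rfl⟩
  have hk' : PTime k := .of_eq (by fun_prop) fun a => (hk a).symm
  obtain ⟨K, hK, hK'⟩ : ∃ K, PTime K ∧ ∀ a, N a * (L a * k a) + N a * (4 * N a * L a * k a) ≤ K a :=
    ⟨_, (hN.mul (hL.mul hk')).add (hN.mul ((((PTime.const 4).mul hN).mul hL).mul hk')), fun _ => le_rfl⟩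
  have b0 := fun a => real_math (hS a) (a3 a) (hu' a) (hK' a) (hc a) (hk a)
    (fun x hx => hb a x ((a0 a x).1 hx)) (hM' a) (hL' a)
  have b4 := Pz.om (t := fun x : α × ℕ => t x.1) (hn.comp .fst_id) (hM.comp .fst_id) (hc'.comp .fst_id)
    .snd_id
  have b5 := Ch.Xv (hn.comp .fst_id) (hn'.comp .fst_id) (hd.comp (f := fun x : (α × ℕ) × ℕ =>
    (x.1.1, x.2)) (by fun_prop)) (fun _ => H _) (fun _ => hD _) (hN.comp .fst_id) (fun _ => hN' _)
    (fun _ => hu' _) (hD'.comp .fst_id) (ht.comp .fst_id) (hh.comp .fst_id) (hu.comp .fst_id) (b4 1)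
    (b4 (-1)) (fun _ => le_om _ _ _ _ _) (fun _ => le_om _ _ _ _ _) (hL.comp .fst_id) (hk'.comp .fst_id)
    (hK.comp .fst_id) (fun _ => hK' _) fun x y z hy hz => (b0 x.1).1 _ y ((a0 _ _).2 hy) z ((a0 _ _).2 hz)
  exact (Ch.cnt (hN.mul hN) hc' (Q := fun a b => 0 < P337.Xv (N a) (K a) (L a) (k a) (d a) (h a) (u a) (om (M a) (c a) b 1 0)
    (om (M a) (c a) b (-1) 0)) b5).of_iff fun a => by
      simp only [← a0, ← (b0 a).2]
      congr!

omit hu' in
theorem Ch.real (hF : Db F) (hb : ∀ a (x : Fin (n a) → ℂ),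
      (∀ i, x i ^ d a i = aeval x (h a i)) → x 0 ^ 2 = -1 ∧ ∀ i, ‖x i‖ ≤ F a) :
    Ch fun a => ∃ x : Fin (n a) → ℂ, (∀ i, x i ^ d a i = aeval x (h a i)) ∧ ∀ i ≠ 0, (x i).im = 0 := by
  choose S hS using fun a => ((H a).map (Int.castRingHom ℂ)).sol
  have a0 : ∀ a x, x ∈ S a ↔ ∀ i, x i ^ d a i = aeval x (h a i) := fun a x => by
    simp [(hS a).2.1, eval_map, aeval_def]
  have a1 := Ch.realU (u := fun x : α × ℕ => uc (n x.1) x.2)
    (hn.comp .fst_id) (hn'.comp .fst_id) (hd.comp (f := fun x : (α × ℕ) × ℕ => (x.1.1, x.2))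
    (by fun_prop)) (fun _ => H _) (fun _ => hD _) (hN.comp .fst_id) (fun _ => hN' _)
    (fun _ => Le.sum fun _ _ => ((Le.C _).mul (.X _)).mono (by simp)) (hD'.comp .fst_id)
    (ht.comp .fst_id) (hh.comp .fst_id) (fun γ _ g V m hg hm _ => by
      have g1 : PTime fun x : (γ × ℕ) × ℕ => n (g x.1.1).1 := hn.comp (hg.comp (.fst .fst_id)).fst
      have g2 : PTime fun x : (γ × ℕ) × ℕ => m x.1.1 := hm.comp (.fst .fst_id)
      unfold uc
      refine .sumF (hn.comp (hg.comp .fst_id).fst) (.mul (.C ?_) (.X g1 .snd_id))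
      simp only [Fin.ext_iff, Fin.val_ofNat, Fin.val_zero]
      exact .ite (.of ((PTime.snd_id.mod g1).decide_eq (.const 0))) (.of g2 (.const 0))
        (.pow (.of g2 (hg.comp (.fst .fst_id)).snd.natCast_int) (PTime.snd_id.mod g1)))
    ((Db.of (hn.comp .fst_id)).mul (((Db.of (PTime.snd_id.add (.const 1))).pow (hn.comp .fst_id)).mul
      (hF.comp .fst_id))) fun a x hx => ⟨(hb _ x hx).1, by
        rw [uc, map_sum]
        refine (norm_sum_le_of_le _ (n := fun _ => (a.2 + 1) ^ n a.1 * F a.1) fun i _ => ?_).trans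
          (by simp)
        grw [map_mul, norm_mul, aeval_X, (hb _ x hx).2]
        gcongr
        split_ifs
        · simp; positivity
        · simp; grw [← i.2.le, ← zero_le_one, add_zero]; simp⟩
  exact (Ch.all (Q := fun a c => ∃ x : Fin (n a) → ℂ, (∀ i, x i ^ d a i = aeval x (h a i)) ∧ (aeval x
    (uc (n a) c)).im = 0) ((hN.mul hn).add (.const 1)) a1).of_iff fun a => by
      simpa only [a0] using all_uc ((hS a).1.trans_le (hN' a))

end Vale.Agent.P337
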