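import Vale.Agent.P337.Real

/-! Reducing real feasibility to a system of Pham type. -/

namespace Vale.Agent.P337

open Finset Classical MvPolynomial

set_option linter.unusedSectionVars false

theorem int_big {p : Polynomial ℤ} {c : ℝ} (hc : 1 ≤ c) (hp : p ≠ 0)
    (h : ∀ z : ℂ, ‖z‖ = 1 → ‖p.eval₂ (Int.castRingHom ℂ) z‖ ≤ c) {z : ℂ} (hz : c + 1 ≤ ‖z‖) :
    1 ≤ ‖p.eval₂ (Int.castRingHom ℂ) z‖ := by
  rw [← Polynomial.eval_map, (IsAlgClosed.splits _).eval_eq_prod_roots, norm_mul, norm_mprod,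
    Polynomial.leadingCoeff_map_of_injective (Int.castRingHom ℂ).injective_int, eq_intCast,
    Complex.norm_intCast]
  refine one_le_mul_of_one_le_of_one_le (by
    exact_mod_cast Int.one_le_abs (Polynomial.leadingCoeff_ne_zero.2 hp)) ?_
  simpa using Multiset.prod_map_le_prod_map₀ (fun _ => (1 : ℝ)) (fun r => ‖z - r‖) (by simp) fun r hr => by
    have := int_root hc hp h (z := r) (by simpa [Polynomial.eval_map] using (Polynomial.mem_roots'.1 hr).2)
    linarith [norm_sub_norm_le z r]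

variable {σ R R' : Type} [CommRing R] [CommRing R'] [Fintype σ] [DecidableEq σ] {δ H l : ℕ}
  {f : MvPolynomial σ ℤ}

/-- The penalised objective. -/
noncomputable def gP (δ : ℕ) (f : MvPolynomial σ ℤ) (t : R) : MvPolynomial σ R :=
  ∑ j, X j ^ (2 * δ + 2) + C ((2 * δ + 2) * t) * map (Int.castRingHom R) f

theorem map_gP (φ : R →+* R') (t : R) : map φ (gP δ f t) = gP δ f (φ t) := by
  simp [gP, MvPolynomial.map_map, RingHom.eq_intCast' (φ.comp _), map_ofNat]

theorem eval_gP (t : R) (x : σ → R) :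
    eval x (gP δ f t) = ∑ j, x j ^ (2 * δ + 2) + (2 * δ + 2) * t * aeval x f := by
  simp [gP, eval_map, aeval_def]

theorem Le.gP (hf : Le (2 * δ) f) (t : R) : Le (2 * δ + 2 : ℕ) (gP δ f t) :=
  (Le.sum fun j _ => ((Le.X j).pow _).mono (by simp)).add (((Le.C _).mul (hf.map _)).mono (by simp))

theorem aeval_re (x : σ → ℝ) (q : MvPolynomial σ ℤ) :
    aeval (fun j => (x j : ℂ)) q = ((aeval x q : ℝ) : ℂ) := by
  induction q using MvPolynomial.induction_on <;> simp [*]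

/-- The bound on solutions. -/
def rho (δ H l : ℕ) : ℕ := 1 + l * (2 * δ * (H * 2 ^ (2 * δ)))

/-- The bound on critical values. -/
def GG (n δ H l : ℕ) : ℕ := n * rho δ H l ^ (2 * δ + 2) + (2 * δ + 2) * l * (H * rho δ H l ^ (2 * δ)) + 1

variable (hf : Le (2 * δ) f) (hH : 1 ≤ H)
  (hb : ∀ (x : σ → ℂ) (r : ℝ), 1 ≤ r → (∀ i, ‖x i‖ ≤ r) → ‖aeval x f‖ ≤ H * r ^ (2 * δ))
include hf hH hb

theorem sol_bound {t : ℂ} (ht : ‖t‖ ≤ l) {x : σ → ℂ}
    (hx : ∀ j, x j ^ (2 * δ + 1) = -t * aeval x (pderiv j f)) :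
    (∀ j, ‖x j‖ ≤ rho δ H l) ∧ ‖eval x (gP δ f t)‖ + 1 ≤ GG (Fintype.card σ) δ H l := by
  have h0 : (1 : ℝ) ≤ rho δ H l := by simp [rho]; positivity
  have h1 : ‖x‖ ≤ rho δ H l := le_of_not_gt fun h => lt_irrefl _ ((pi_norm_lt_iff (by linarith)).2 fun j =>
    lt_of_pow_lt_pow_left₀ (2 * δ + 1) (norm_nonneg _) (by
      have a1 := (lin x j (map (Int.castRingHom ℂ) f)).norm_coeff_le_choose_mul_mahlerMeasure 1
      have a2 := mahler_le (p := lin x j (map (Int.castRingHom ℂ) f)) (c := H * (2 * ‖x‖) ^ (2 * δ))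
        (one_le_mul_of_one_le_of_one_le (by simpa) (one_le_pow₀ (by linarith))) fun z hz => by
          rw [eval_lin, eval_map]
          refine hb _ _ (by linarith) fun i => ?_
          have := norm_le_pi_norm x i
          grw [norm_add_le]
          split_ifs <;> simp only [hz, norm_zero] <;> linarith
      have a3 := (natDegree_lin x j _).trans (le_iff.1 (hf.map (Int.castRingHom ℂ)))
      rw [coeff_lin, pderiv_map, eval_map, Nat.choose_one_right] at a1
      have : 0 < ‖x‖ ^ (2 * δ) := pow_pos (by linarith) _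
      grw [← norm_pow, hx, norm_mul, norm_neg, aeval_def, algebraMap_int_eq, a1, a2, a3, ht, pow_succ']
      refine lt_of_lt_of_le ?_ (mul_le_mul_of_nonneg_right h.le this.le)
      simp only [rho, mul_pow]; push_cast; nlinarith))
  have h2 := fun j => (norm_le_pi_norm x j).trans h1
  refine ⟨h2, ?_⟩
  grw [eval_gP, norm_add_le, norm_sum_le_of_le _ (n := fun _ => (rho δ H l : ℝ) ^ (2 * δ + 2)) fun j _ => by
    grw [norm_pow, h2], norm_mul, norm_mul, hb x _ h0 h2, ht,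
    show ‖(2 * δ + 2 : ℂ)‖ = 2 * δ + 2 by norm_cast]
  simp [GG]

theorem key {N G : ℕ} (hN : (2 * δ + 1) ^ Fintype.card σ ≤ N) (hG : G = GG (Fintype.card σ) δ H 1) {t : ℂ}
    {x : σ → ℂ} (hx : ∀ j, x j ^ (2 * δ + 1) = -t * aeval x (pderiv j f))
    (h : ee N 0 * (1 + G) ^ N + 1 ≤ ‖eval x (gP δ f t)‖) :
    ‖t‖ ≤ ee N 0 * (‖eval x (gP δ f t)‖ + G) ^ N := by
  obtain ⟨P, hP⟩ : ∃ P : Polynomial (Polynomial ℤ), ∀ μ t : ℂ, ∃ S : Multiset (σ → ℂ), S.card ≤ N ∧
      (∀ x, x ∈ S ↔ ∀ j, x j ^ (2 * δ + 1) = -t * aeval x (pderiv j f)) ∧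
      (P.map (Polynomial.eval₂RingHom (Int.castRingHom ℂ) μ)).eval t =
        ee N 0 * (S.map fun x => μ - eval x (gP δ f t)).prod := by
    refine ⟨Nm N (N * (2 * δ + 2)) (fun _ => 2 * δ + 1) (fun j => -C .X * map (Int.castRingHom _)
      (pderiv j f)) (C (.C .X) - gP δ f .X), fun μ t => ?_⟩
    obtain ⟨S, h1, h2, h3⟩ := Ph.sol (d := fun _ => 2 * δ + 1) (h := fun j => -C t * map (Int.castRingHom ℂ)
      (pderiv j f)) fun j => ⟨by simp, ((Le.C _).neg.mul ((hf.pderiv j).map _)).mono (by simp)⟩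
    have h4 : S.card ≤ N := by simpa [h1]
    refine ⟨S, h4, by simp [h2, eval_map, aeval_def], ?_⟩
    rw [Polynomial.eval_map, ← Polynomial.coe_eval₂RingHom, map_Nm]
    simpa [map_gP, MvPolynomial.map_map, RingHom.eq_intCast' (RingHom.comp _ _)] using
      h3 N _ _ _ h4 (((Le.C μ).mono (by omega)).sub (hf.gP t)) le_rfl
  have h0 : (1 : ℝ) ≤ G := by simp [hG, GG]; positivity
  have h1 : ∀ μ : ℂ, 1 ≤ ee N 0 * (‖μ‖ + G) ^ N := fun μ => one_le_mul_of_one_le_of_one_le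
    (Nat.one_le_cast.2 (ee_pos N 0)) (one_le_pow₀ (by linarith [norm_nonneg μ]))
  have h2 := fun μ => mahler (p := P.map (Polynomial.eval₂RingHom (Int.castRingHom ℂ) μ)) (h1 μ)
    fun t ht => by
      obtain ⟨S, a1, a2, a3⟩ := hP μ t
      rw [a3, norm_mul, Complex.norm_natCast]
      gcongr
      refine norm_mprod_le a1 (by linarith [norm_nonneg μ]) fun y hy => ?_
      linarith [norm_sub_le μ (eval y (gP δ f t)),
        hG ▸ (sol_bound (l := 1) hf hH hb (by simp [ht]) ((a2 y).1 hy)).2]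
  have h3 : P ≠ 0 := by
    rintro rfl
    obtain ⟨S, -, a2, a3⟩ := hP G 1
    refine mul_ne_zero (Nat.cast_ne_zero.2 (ee_pos N 0).ne') (Multiset.prod_ne_zero fun h => ?_)
      (a3.symm.trans (by simp))
    obtain ⟨y, hy, e⟩ := Multiset.mem_map.1 h
    have := (sol_bound (l := 1) hf hH hb (by simp) ((a2 y).1 hy)).2
    norm_num [← sub_eq_zero.1 e, ← hG] at this
  have h4 := int_big (by simpa using h1 1) (Polynomial.leadingCoeff_ne_zero.2 h3) (fun μ hμ => by
    by_cases e : P.leadingCoeff.eval₂ (Int.castRingHom ℂ) μ = 0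
    · simpa [e] using zero_le_one.trans (h1 1)
    · simpa [Polynomial.leadingCoeff_map_of_leadingCoeff_ne_zero (Polynomial.eval₂RingHom _ _) e, hμ] using (h2 μ).1) h
  have h5 : P.leadingCoeff.eval₂ (Int.castRingHom ℂ) (eval x (gP δ f t)) ≠ 0 := fun e => by
    norm_num [e] at h4
  obtain ⟨S, -, a2, a3⟩ := hP (eval x (gP δ f t)) t
  have h6 := Polynomial.leadingCoeff_map_of_leadingCoeff_ne_zero (Polynomial.eval₂RingHom _ _) h5
  refine le_trans (le_mul_of_one_le_left (norm_nonneg _) (h6 ▸ h4)) ((h2 _).2 t (Polynomial.mem_roots'.2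
    ⟨Polynomial.leadingCoeff_ne_zero.1 (h6 ▸ h5), a3.trans ?_⟩))
  exact mul_eq_zero_of_right _ (Multiset.prod_eq_zero (Multiset.mem_map.2 ⟨x, (a2 x).2 hx, sub_self _⟩))

theorem red {N G B : ℕ} (h0 : ∀ x : σ → ℝ, 0 ≤ aeval x f) (hN : (2 * δ + 1) ^ Fintype.card σ ≤ N)
    (hG : G = GG (Fintype.card σ) δ H 1) (hB : ee N 0 * (1 + G) ^ N + 1 ≤ B)
    (hl : ee N 0 * (2 * B + G) ^ N + 1 ≤ l) : (∃ x : σ → ℝ, aeval x f = 0) ↔ ∃ x : σ → ℝ,
      (∀ j, x j ^ (2 * δ + 1) = -l * aeval x (pderiv j f)) ∧ eval x (gP δ f (l : ℝ)) ≤ B := by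
  have h1 : ∀ (x : σ → ℝ) j, 0 ≤ x j ^ (2 * δ + 2) := fun x j => Even.pow_nonneg ⟨δ + 1, by ring⟩ _
  have h2 : ∀ x : σ → ℝ, 0 ≤ ∑ j, x j ^ (2 * δ + 2) := fun x => sum_nonneg fun j _ => h1 x j
  have h3 : ∀ M : ℝ, Bornology.IsBounded {x : σ → ℝ | ∑ j, x j ^ (2 * δ + 2) ≤ M} := fun M =>
    isBounded_iff_forall_norm_le.2 ⟨M + 1, fun x hx => (pi_norm_le_iff_of_nonneg (by
      linarith [(h2 x).trans hx])).2 fun j => by
        have := (single_le_sum (fun j _ => h1 x j) (mem_univ j)).trans hx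
        rcases le_total ‖x j‖ 1 with h | h
        · linarith [h1 x j]
        · rw [← Even.pow_abs ⟨δ + 1, by ring⟩] at this
          rw [Real.norm_eq_abs] at h ⊢
          linarith [le_self_pow₀ h (show 2 * δ + 2 ≠ 0 by omega)]⟩
  have h4 : ∀ (t M : ℝ) (y : σ → ℝ), eval y (gP δ f t) ≤ M → 0 ≤ M → ee N 0 * (M + G) ^ N < t →
      ∃ x : σ → ℝ, (∀ j, x j ^ (2 * δ + 1) = -t * aeval x (pderiv j f)) ∧ eval x (gP δ f t) ≤ B := by
    intro t M y hy hM ht
    have a0 : 0 ≤ t := le_trans (by positivity) ht.le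
    have a1 : ∀ x : σ → ℝ, 0 ≤ (2 * δ + 2) * t * aeval x f := fun x => mul_nonneg (by positivity) (h0 x)
    obtain ⟨x, hx⟩ := (MvPolynomial.continuous_eval (gP δ f t)).exists_forall_le_of_isBounded y
      ((h3 M).subset fun x hx => (le_add_of_nonneg_right (a1 x)).trans
        ((eval_gP t x).ge.trans (le_trans hx hy)))
    have a2 : ∀ j, x j ^ (2 * δ + 1) = -t * aeval x (pderiv j f) := fun j => by
      have := IsLocalMin.hasDerivAt_eq_zero (Filter.Eventually.of_forall fun s => by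
        simpa [eval_lin] using hx _) ((lin x j (gP δ f t)).hasDerivAt 0)
      rw [derivative_lin, eval_lin, gP, map_add, pderiv_C_mul, pderiv_map] at this
      refine mul_left_cancel₀ (show (2 * δ + 2 : ℝ) ≠ 0 by positivity) ?_
      simp [aeval_def, Pi.single_apply] at this ⊢
      linarith
    refine ⟨x, a2, le_of_not_gt fun h => ht.not_ge ?_⟩
    have a3 : ‖eval (fun j => (x j : ℂ)) (gP δ f (t : ℂ))‖ = eval x (gP δ f t) := by
      rw [← Real.norm_of_nonneg (le_trans B.cast_nonneg h.le), ← Complex.norm_real]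
      simp [eval_gP, aeval_re]
    have := key hf hH hb hN hG (t := t) (x := fun j => x j) (fun j => by
      rw [aeval_re]; exact_mod_cast a2 j) (a3 ▸ le_trans (by exact_mod_cast hB) h.le)
    grw [a3, Complex.norm_real, Real.norm_of_nonneg a0, (hx y).trans hy] at this
    · exact this
    · linarith [B.cast_nonneg (α := ℝ), G.cast_nonneg (α := ℝ)]
  have h5 : (ee N 0 * (2 * B + G) ^ N : ℝ) < l := by exact_mod_cast hl
  refine ⟨fun ⟨y, hy⟩ => ?_, fun ⟨y, _, hy⟩ => ?_⟩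
  · obtain ⟨x, -, hx⟩ := h4 (l + (ee N 0 * (∑ j, y j ^ (2 * δ + 2) + G) ^ N + 1)) _ y
      (by simp [eval_gP, hy]) (h2 y) (by linarith [l.cast_nonneg (α := ℝ)])
    refine h4 l _ x ?_ (by positivity) h5
    have := h2 y
    rw [eval_gP] at hx ⊢
    have : 0 ≤ (2 * δ + 2) * (ee N 0 * (∑ j, y j ^ (2 * δ + 2) + G) ^ N + 1) * aeval x f :=
      mul_nonneg (by positivity) (h0 x)
    linarith [B.cast_nonneg (α := ℝ)]
  have h6 : (1 : ℝ) ≤ l := by exact_mod_cast le_trans (by omega) hl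
  have h7 : ∀ k : ℕ, ∃ x, eval x (gP δ f (2 ^ k * l : ℝ)) ≤ B := fun k => by
    induction k with
    | zero => exact ⟨y, by simpa⟩
    | succ k ih =>
      obtain ⟨x, hx⟩ := ih
      refine (h4 _ _ x ?_ (by positivity) (h5.trans_le (le_mul_of_one_le_left (by linarith)
        (one_le_pow₀ one_le_two)))).imp fun _ h => h.2
      rw [eval_gP] at hx ⊢
      linarith [h2 x, pow_succ (2 : ℝ) k, congr((2 * δ + 2) * ($(pow_succ (2 : ℝ) k) * l) * aeval x f)]
  have h8 : ∀ {k : ℕ} {x}, eval x (gP δ f (2 ^ k * l : ℝ)) ≤ B → ∑ j, x j ^ (2 * δ + 2) ≤ B ∧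
      2 ^ k * aeval x f ≤ B := fun {k x} h => by
    rw [eval_gP] at h
    have a := mul_nonneg (show (0 : ℝ) ≤ 2 ^ k by positivity) (h0 x)
    have := le_mul_of_one_le_left a (show (1 : ℝ) ≤ (2 * δ + 2) * l by nlinarith [δ.cast_nonneg (α := ℝ)])
    constructor <;> linarith [h2 x]
  obtain ⟨z, -, hz⟩ := (Metric.isCompact_of_isClosed_isBounded (isClosed_le (by fun_prop) continuous_const)
    (h3 B)).exists_isMinOn ⟨y, (h8 (k := 0) (by simpa)).1⟩
    (MvPolynomial.continuous_eval (map (Int.castRingHom ℝ) f)).continuousOn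
  refine ⟨z, le_antisymm (le_of_not_gt fun h => ?_) (h0 z)⟩
  obtain ⟨k, hk⟩ := pow_unbounded_of_one_lt (B / aeval z f) one_lt_two
  obtain ⟨x, hx⟩ := h7 k
  have : aeval z f ≤ aeval x f := by simpa [eval_map, aeval_def] using hz (h8 hx).1
  rw [div_lt_iff₀ h] at hk
  nlinarith [(h8 hx).2, pow_pos (two_pos (α := ℝ)) k]

end Vale.Agent.P337
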