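import Vale.Agent.P337.Le

/-! The trace formula. -/

namespace Vale.Agent.P337

open MvPolynomial Finset Module

set_option linter.unusedSectionVars false

variable {σ R R' : Type} [CommRing R] [CommRing R'] [Fintype σ] [DecidableEq σ] {d : σ → ℕ}

theorem stick (n : ℕ) (V : Type) [AddCommGroup V] [Module ℂ V] [FiniteDimensional ℂ V]
    (hn : finrank ℂ V = n) (ρ : MvPolynomial σ ℂ → End ℂ V) (h1 : ∀ p q, ρ (p + q) = ρ p + ρ q)
    (h2 : ∀ p q, ρ (p * q) = ρ p * ρ q) (h3 : ∀ c, ρ (C c) = c • 1) : ∃ S : Multiset (σ → ℂ),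
      (∀ q, LinearMap.trace ℂ V (ρ q) = (S.map (eval · q)).sum) ∧
      (∀ x ∈ S, ∀ q, ρ q = 0 → eval x q = 0) ∧
      ∀ f : (σ → ℂ) → MvPolynomial σ ℂ, (∀ x ∈ S, eval x (f x) = 0) → ρ (S.map f).prod = 0 := by
  induction n generalizing V with
  | zero =>
    have := finrank_zero_iff.1 hn
    exact ⟨0, fun q => by simp [Subsingleton.elim (ρ q) 0], by simp, fun _ _ => Subsingleton.elim _ _⟩
  | succ n ih =>
    have : Nontrivial V := (finrank_pos_iff (R := ℂ)).1 (by omega)
    obtain ⟨W, ⟨a1, a2⟩, a3⟩ := (wellFounded_lt (α := Submodule ℂ V)).has_min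
      {W | W ≠ ⊥ ∧ ∀ q, ∀ v ∈ W, ρ q v ∈ W} ⟨⊤, by simp⟩
    have a4 : ∀ i, ∃ c : ℂ, ∀ v ∈ W, ρ (X i) v = c • v := fun i => by
      have := Submodule.nontrivial_iff_ne_bot.2 a1
      obtain ⟨c, hc⟩ := End.exists_eigenvalue ((ρ (X i)).restrict (a2 _))
      obtain ⟨v, hv⟩ := hc.exists_hasEigenvector
      refine ⟨c, fun w hw => End.mem_eigenspace_iff.1 ((eq_of_le_of_not_lt inf_le_left (a3
        (W ⊓ (ρ (X i)).eigenspace c) ⟨(Submodule.ne_bot_iff _).2 ⟨v, ⟨v.2, End.mem_eigenspace_iff.2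
          (congrArg Subtype.val hv.apply_eq_smul)⟩, by simpa using hv.2⟩, fun q u hu =>
          ⟨a2 _ _ hu.1, End.mem_eigenspace_iff.2 ?_⟩⟩)).ge hw).2⟩
      rw [← End.mul_apply, ← h2, mul_comm, h2, End.mul_apply, End.mem_eigenspace_iff.1 hu.2, map_smul]
    choose x hx using a4
    obtain ⟨v, hv, hv'⟩ := (Submodule.ne_bot_iff _).1 a1
    have a5 : ∀ q, ρ q v = eval x q • v := fun q => by
      induction q using MvPolynomial.induction_on with
      | C c => simp [h3]
      | add p q hp hq => simp [h1, hp, hq, add_smul]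
      | mul_X p i hp => simp [h2, hx i v hv, hp, smul_smul, mul_comm]
    have a6 : ∀ q, ∀ w ∈ ℂ ∙ v, ρ q w = eval x q • w := fun q w hw => by
      obtain ⟨c, rfl⟩ := Submodule.mem_span_singleton.1 hw
      rw [map_smul, a5, smul_comm]
    have a7 : ∀ q, (ℂ ∙ v) ≤ (ℂ ∙ v).comap (ρ q) := fun q w hw => by
      simpa [a6 q w hw] using Submodule.smul_mem _ _ hw
    have a8 := (ℂ ∙ v).finrank_quotient_add_finrank
    rw [finrank_span_singleton hv'] at a8
    obtain ⟨S, b1, b2, b3⟩ := ih (V ⧸ ℂ ∙ v) (by omega) (fun q => (ℂ ∙ v).mapQ _ (ρ q) (a7 q))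
      (fun _ _ => by ext; simp [h1]) (fun _ _ => by ext; simp [h2]) fun _ => by ext; simp [h3]
    refine ⟨x ::ₘ S, fun q => ?_, Multiset.forall_mem_cons.2 ⟨fun q h => by
      simpa [h, hv'] using (a5 q).symm, fun y hy q h => b2 y hy q (by ext; simp [h])⟩, fun f hf => ?_⟩
    · have := LinearMap.trace_comp_comm' ((ℂ ∙ v).liftQ (ρ q - eval x q • 1) fun w hw => by
        simp [a6 q w hw]) (ℂ ∙ v).mkQ
      rw [Submodule.liftQ_mkQ, show _ ∘ₗ _ = (ℂ ∙ v).mapQ _ (ρ q) (a7 q) - eval x q • 1 by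
        ext; simp] at this
      simp only [map_sub, map_smul, LinearMap.trace_one, b1, ← a8] at this
      simp at this ⊢
      linear_combination -this
    · ext w
      have := congr($(b3 f fun y hy => hf y (by simp [hy])) ((ℂ ∙ v).mkQ w))
      simp only [Submodule.mkQ_apply, Submodule.mapQ_apply, LinearMap.zero_apply,
        Submodule.Quotient.mk_eq_zero] at this
      simp [h2, a6 _ _ this, hf]

/-- The Jacobian. -/
noncomputable def Jac (d : σ → ℕ) (h : σ → MvPolynomial σ R) : MvPolynomial σ R :=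
  (Matrix.of fun i j => pderiv j (X i ^ d i - h i)).det

theorem map_Jac (φ : R →+* R') (h : σ → MvPolynomial σ R) :
    map φ (Jac d h) = Jac d fun i => map φ (h i) := by
  rw [Jac, RingHom.map_det, Jac]; congr 1; ext1; simp [-map_sub, ← pderiv_map]; simp

theorem Ph.map {h : σ → MvPolynomial σ R} (H : Ph d h) (φ : R →+* R') : Ph d fun i => map φ (h i) :=
  fun i => ⟨(H i).1, (H i).2.map φ⟩

theorem Ph.jac {h : σ → MvPolynomial σ R} (H : Ph d h) :
    Le (∑ i, ((d i : ℤ) - 1)) (Jac d h) ∧ H.res (Jac d h) = ∏ i, (d i : R) := by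
  convert H.res_det (fun i => d i) fun i j => ((H i).2.pderiv j).neg using 3 <;>
    (rw [Jac]; congr 1; ext1 i j; by_cases h : i = j <;> simp [h, sub_eq_add_neg])

theorem Ph.res_map {h : σ → MvPolynomial σ R} (H : Ph d h) (φ : R →+* R') (q : MvPolynomial σ R) :
    (H.map φ).res (MvPolynomial.map φ q) = φ (H.res q) := by
  have : Le (∑ i, ((d i : ℤ) - 1) + q.totalDegree) q := (le_iff.2 le_rfl).mono
    (le_add_of_nonneg_left (sum_nonneg fun i _ => by have := (H i).1; omega))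
  rw [H.res_eq this, (H.map φ).res_eq (this.map φ), map_tau]

theorem Ph.bez {h : σ → MvPolynomial σ R} (H : Ph d h) (y : σ → R)
    (hy : ∀ i, y i ^ d i = eval y (h i)) : ∃ D : MvPolynomial σ R,
      (∀ q, H.res (q * D) = eval y q) ∧ eval y D = eval y (Jac d h) := by
  choose g a2 a3 using fun i => exists_div (e := d i - 1 - 1) y
    (q := C (y i) * X i ^ (d i - 1) - h i) (Le.sub (by
      simpa [Nat.cast_sub (H i).1] using (Le.C _).mul ((Le.X i).pow (d i - 1)))
      (by simpa using (H i).2))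
  obtain ⟨-, a4⟩ := H.res_det 1 a2
  obtain ⟨D, hD⟩ : ∃ D, D = Matrix.diagonal (fun i => C ((1 : σ → _) i) * X i ^ (d i - 1)) +
    Matrix.of g := ⟨_, rfl⟩
  rw [← hD, Pi.one_def, prod_const_one] at a4
  have a5 : ∀ i, ∑ j, D i j * (X j - C (y j)) = X i ^ d i - h i := fun i => by
    have := hy i
    rw [← pow_sub_one_mul (Nat.ne_of_gt (H i).1)] at this ⊢
    simp only [hD, Matrix.add_apply, add_mul, sum_add_distrib, Matrix.of_apply, ← a3]
    simp [Matrix.diagonal_apply, ← this]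
    ring
  refine ⟨D.det, fun q => ?_, ?_⟩
  · obtain ⟨u, -, hu⟩ := exists_div (e := q.totalDegree - 1) y (q := q)
      (by simpa using le_iff.2 le_rfl)
    have : ∀ j, (X j - C (y j)) * D.det = ∑ i, D.adjugate j i * (X i ^ d i - h i) := fun j => by
      have := congrFun (Matrix.mulVec_mulVec (fun j => X j - C (y j)) D.adjugate D) j
      rw [Matrix.adjugate_mul, Matrix.smul_mulVec, Matrix.one_mulVec] at this
      simpa only [← a5, Matrix.mulVec, dotProduct, Pi.smul_apply, smul_eq_mul, mul_comm D.det]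
        using this.symm
    rw [← sub_add_cancel q (C _), hu, add_mul, map_add, ← smul_eq_C_mul, map_smul, a4]
    simp only [sum_mul, mul_assoc, this, mul_sum, map_sum]
    simp [← mul_assoc, H.res_ideal]
  · rw [Jac, RingHom.map_det, RingHom.map_det]
    congr 1; ext i j
    simp [← a5, Pi.single_apply, apply_ite (eval y)]

theorem Ph.trace_aux {h : σ → MvPolynomial σ ℂ} (H : Ph d h) {A : Type} [CommRing A] [Algebra ℂ A]
    (π : MvPolynomial σ ℂ →ₐ[ℂ] A) (h1 : Function.Surjective π)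
    (h2 : ∀ q, π q = 0 ↔ ∃ c : σ → _, ∑ i, c i * (X i ^ d i - h i) = q) : ∃ S : Multiset (σ → ℂ),
    S.card = ∏ i, d i ∧ (∀ x, x ∈ S ↔ ∀ i, x i ^ d i = eval x (h i)) ∧
      ∀ q, H.res (q * Jac d h) = (S.map (eval · q)).sum := by
  classical
  have a0 : ∀ q, eval (fun j => π (X j)) (MvPolynomial.map (algebraMap ℂ A) q) = π q := fun q => by
    induction q using MvPolynomial.induction_on <;> simp_all
  have a1 : ∀ i, π (X i ^ d i - h i) = 0 := fun i => (h2 _).2 ⟨Pi.single i 1, by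
    simp [Pi.single_apply]⟩
  obtain ⟨D, a6, a7⟩ := (H.map (algebraMap ℂ A)).bez (fun j => π (X j)) fun i => by
    simpa [a0, sub_eq_zero] using a1 i
  rw [← map_Jac, a0] at a7
  obtain ⟨s, hs⟩ := π.toLinearMap.exists_rightInverse_of_surjective (LinearMap.range_eq_top.2 h1)
  have a8 : ∀ q, H.res (s (π q)) = H.res q := fun q => by
    obtain ⟨c, hc⟩ := (h2 (s (π q) - q)).1 (by simpa [sub_eq_zero] using congr($hs (π q)))
    rw [← sub_eq_zero, ← map_sub, ← hc]
    simp [H.res_ideal]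
  have a9 : ∀ q z, π q * z = ∑ m ∈ D.support,
      H.res (s (π (q * monomial m 1) * z)) • coeff m D := fun q z => by
    obtain ⟨z, rfl⟩ := h1 z
    rw [← map_mul, ← a0, ← a6]
    conv_lhs => rw [D.as_sum, mul_sum, map_sum]
    refine sum_congr rfl fun m _ => ?_
    rw [← map_mul, a8, Algebra.smul_def, ← H.res_map, mul_comm (Ph.res _ _) (coeff m D),
      ← smul_eq_mul (coeff m D), ← map_smul, smul_eq_C_mul, mul_right_comm q, map_mul _ (q * z),
      map_monomial, mul_left_comm, C_mul_monomial, map_one, mul_one]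
  have : FiniteDimensional ℂ A := ⟨⟨D.support.image (coeff · D), eq_top_iff.2 fun z _ => by
    rw [← one_mul z, ← map_one π, a9]
    exact sum_mem fun m hm => Submodule.smul_mem _ _ (Submodule.subset_span (by
      simpa using ⟨m, by simpa using hm, rfl⟩))⟩⟩
  obtain ⟨S, b1, b2, b3⟩ := stick _ _ rfl (fun q => LinearMap.mulLeft ℂ (π q))
    (fun _ _ => by ext; simp [add_mul]) (fun _ _ => by ext; simp)
    fun _ => by ext; simp [Algebra.smul_def]
  have b4 : ∀ q, H.res (q * Jac d h) = (S.map (eval · q)).sum := fun q => by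
    rw [← b1, show LinearMap.mulLeft ℂ (π q) = ∑ m ∈ D.support, (H.res ∘ₗ s ∘ₗ
      LinearMap.mulLeft ℂ (π (q * monomial m 1))).smulRight (coeff m D) by
        ext z; simpa [-map_mul] using a9 q z,
      ← a8, map_mul, ← a7, eval_eq, mul_sum, map_sum, map_sum, map_sum]
    refine sum_congr rfl fun m _ => ?_
    rw [LinearMap.trace_smulRight, ← show π (monomial m 1) = ∏ i ∈ m.support, π (X i) ^ m i by
      rw [monomial_eq, C_1, one_mul, Finsupp.prod, map_prod]; simp]
    simp [mul_comm, mul_left_comm]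
  refine ⟨S, ?_, fun x => ⟨fun hx i => by
    have := b2 x hx (X i ^ d i - h i) (by simp [a1 i])
    rwa [_root_.map_sub, sub_eq_zero, _root_.map_pow, eval_X] at this,
    fun hx => by_contra fun h => ?_⟩, b4⟩
  · simpa [H.jac.2, ← Nat.cast_prod] using (b4 1).symm
  · have : ∀ y, ∃ f : MvPolynomial σ ℂ, eval y f = 0 ∧ (y ∈ S → eval x f ≠ 0) := fun y => by
      by_cases hy : y ∈ S
      · obtain ⟨j, hj⟩ := Function.ne_iff.1 (ne_of_mem_of_not_mem hy h)
        exact ⟨X j - C (y j), by simp, fun _ => by simpa [sub_eq_zero] using hj.symm⟩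
      · exact ⟨0, by simp [hy]⟩
    choose f f1 f2 using this
    obtain ⟨c, hc⟩ := (h2 _).1 ((mul_one _).symm.trans congr($(b3 f fun y _ => f1 y) 1))
    have := congr(eval x $hc)
    simp [hx, map_multiset_prod, eq_comm (a := (0 : ℂ))] at this
    obtain ⟨y, hy, hy'⟩ := this
    exact f2 y hy (by simpa using hy')

theorem Ph.trace {h : σ → MvPolynomial σ ℂ} (H : Ph d h) : ∃ S : Multiset (σ → ℂ),
    S.card = ∏ i, d i ∧ (∀ x, x ∈ S ↔ ∀ i, x i ^ d i = eval x (h i)) ∧
      ∀ q, H.res (q * Jac d h) = (S.map (eval · q)).sum :=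
  H.trace_aux (Ideal.Quotient.mkₐ ℂ (.span (Set.range fun i => X i ^ d i - h i)))
    (Ideal.Quotient.mkₐ_surjective _ _) fun _ =>
      Ideal.Quotient.eq_zero_iff_mem.trans Ideal.mem_span_range_iff_exists_fun

end Vale.Agent.P337
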